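import Vale.Agent.P237.Petty.Cor.Huge.Params
import Vale.Agent.P237.Petty.Cor.Scalar

/-!
# P237: the part of the integrand at speeds below one half

The room above `t` bounds the reciprocal of the speed by `(1 - t) (u ^ 2 s + u) / c ^ 2`. Up to
`s = (log u + 2.2) / u` the logarithm of the shadow pays for the potential; beyond, the whole is
above minus `farLoss`.
-/

namespace Vale.Agent.P237.Petty.Cor.Huge

open Set

variable {u c s t r : ℝ}

theorem log_bounds_small : 9153 / 10000 ≤ Real.log (5 / 2) ∧ 16085 / 10000 ≤ Real.log 5 ∧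
    176 / 100 ≤ Real.log (5845 / 1000) := by
  have h2 := Real.log_two_gt_d9
  have h := Real.le_log_one_add_of_nonneg (show (0 : ℝ) ≤ 1 / 4 by norm_num)
  have h' := Real.le_log_one_add_of_nonneg (show (0 : ℝ) ≤ 1845 / 4000 by norm_num)
  have e1 : Real.log (5 / 2) = Real.log 2 + Real.log (1 + 1 / 4) := by
    rw [← Real.log_mul (by norm_num) (by norm_num)]
    norm_num
  have e2 : Real.log 5 = Real.log 2 + Real.log (5 / 2) := by
    rw [← Real.log_mul (by norm_num) (by norm_num)]
    norm_num
  have e3 : Real.log (5845 / 1000) = Real.log 2 + (Real.log 2 + Real.log (1 + 1845 / 4000)) := by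
    rw [← Real.log_mul (by norm_num) (by norm_num), ← Real.log_mul (by norm_num) (by norm_num)]
    norm_num
  norm_num at h h' e1 e2 e3 h2 ⊢
  exact ⟨by linarith, by linarith, by linarith⟩

/-- The two bounds at the far end of the room, for `W` up to `u (log u + 3.2)`. -/
theorem room_ends (hu : 14247 / 1000 ≤ u) {W : ℝ} (h0 : u ≤ W)
    (h1 : W ≤ u * (Real.log u + 32 / 10)) :
    0 ≤ cB u * Real.log (W / 2) - (cK u + 2 * cb u) * (W / 2) - 2 * u ∧
      0 ≤ cB u * Real.log W - cK u * W - 2 * u := by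
  have hK := cK_bounds hu
  have hb := cb_bounds hu
  have hB := cB_bounds hu
  have hu0 : 0 < u := by linarith
  have hL := log_ge hu
  have h2 := Real.log_two_lt_d9
  have hW : 0 < W := by linarith
  set L := Real.log u with hLdef
  have hX : 0 < L + 32 / 10 := by linarith
  have hlX : 176 / 100 ≤ Real.log (L + 32 / 10) :=
    log_bounds_small.2.2.trans (Real.log_le_log (by norm_num) (by linarith))
  have hlog : Real.log (u * (L + 32 / 10)) = L + Real.log (L + 32 / 10) := by
    rw [Real.log_mul hu0.ne' hX.ne', hLdef]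
  constructor
  · have key : 0 ≤ 2 * u * Real.log W + -(15666 / 20000) * W + -(2 * u * Real.log 2 + 2 * u) := by
      refine log_affine_nonneg (by linarith) hu0 h0 h1 ?_ ?_
      · rw [← hLdef]
        linarith [mul_le_mul_of_nonneg_left hL hu0.le, mul_le_mul_of_nonneg_left h2.le hu0.le]
      · rw [hlog]
        linarith [mul_le_mul_of_nonneg_left hL hu0.le, mul_le_mul_of_nonneg_left h2.le hu0.le,
          mul_le_mul_of_nonneg_left hlX hu0.le]
    have hl2 : 0 ≤ Real.log (W / 2) := Real.log_nonneg (by linarith)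
    have hd : Real.log (W / 2) = Real.log W - Real.log 2 := Real.log_div hW.ne' two_ne_zero
    have := mul_le_mul_of_nonneg_right hB.1 hl2
    have := mul_le_mul_of_nonneg_right
      (show cK u + 2 * cb u ≤ 15666 / 10000 by linarith) (show 0 ≤ W / 2 by linarith)
    rw [hd] at *
    linarith
  · have key : 0 ≤ 2 * u * Real.log W + -(11454 / 10000) * W + -(2 * u) := by
      refine log_affine_nonneg (by linarith) hu0 h0 h1 ?_ ?_
      · rw [← hLdef]
        linarith [mul_le_mul_of_nonneg_left hL hu0.le]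
      · rw [hlog]
        linarith [mul_le_mul_of_nonneg_left hL hu0.le, mul_le_mul_of_nonneg_left hlX hu0.le]
    have := mul_le_mul_of_nonneg_right hB.1 (Real.log_nonneg (show 1 ≤ W by linarith))
    have := mul_le_mul_of_nonneg_right hK.2 hW.le
    linarith

/-- The logarithm pays for the potential up to five. -/
theorem low_ge (hu : 14247 / 1000 ≤ u) {Q q : ℝ} (hQ : Q ≤ cK u + 2 * cb u) (hq : 2 ≤ q)
    (hq5 : q ≤ 5) : 0 ≤ cB u * Real.log q - Q * (q - 1) - 2 * u * (1 - 1 / q) := by
  have hK := cK_bounds hu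
  have hb := cb_bounds hu
  obtain ⟨hl25, hl5, -⟩ := log_bounds_small
  have hl2 := Real.log_two_gt_d9
  have hB := mul_le_mul_of_nonneg_right (cB_bounds hu).1 (Real.log_nonneg (show 1 ≤ q by linarith))
  have hQ' := mul_le_mul_of_nonneg_right (hQ.trans (show cK u + 2 * cb u ≤ 15666 / 10000 by linarith))
    (show 0 ≤ q - 1 by linarith)
  have hu0 : 0 ≤ u := by linarith
  have m2 := mul_le_mul_of_nonneg_left hl2.le hu0
  have m25 := mul_le_mul_of_nonneg_left hl25 hu0
  have m5 := mul_le_mul_of_nonneg_left hl5 hu0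
  rcases le_total q (5 / 2) with h | h
  · have hw : 1 - 1 / q ≤ 3 / 5 := by
      rw [sub_le_iff_le_add, ← sub_le_iff_le_add', le_div_iff₀ (by linarith)]
      linarith
    have := mul_le_mul_of_nonneg_left hw hu0
    have key : 0 ≤ 2 * u * Real.log q + -(15666 / 10000) * q + (15666 / 10000 - 6 / 5 * u) := by
      refine log_affine_nonneg (by linarith) two_pos hq h ?_ ?_ <;> linarith
    linarith
  · have hw : 1 - 1 / q ≤ 4 / 5 := by
      rw [sub_le_iff_le_add, ← sub_le_iff_le_add', le_div_iff₀ (by linarith)]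
      linarith
    have := mul_le_mul_of_nonneg_left hw hu0
    have key : 0 ≤ 2 * u * Real.log q + -(15666 / 10000) * q + (15666 / 10000 - 8 / 5 * u) := by
      refine log_affine_nonneg (by linarith) (by norm_num) h hq5 ?_ ?_ <;> linarith
    linarith

/-- The same up to the end of the room. -/
theorem high_ge (hu : 14247 / 1000 ≤ u) {e d W q : ℝ} (hd : d ≤ 1 - e) (hd' : 0 ≤ cK u + 2 * cb u * d)
    (he1 : e ≤ 1) (hd1 : d ≤ 1) (hc : 0 < c) (hc1 : c ^ 2 ≤ 1) (hW0 : u ≤ W)
    (hW1 : W ≤ u * (Real.log u + 32 / 10)) (hq : 5 ≤ q) (hroom : q * c ^ 2 ≤ e * W) :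
    0 ≤ cB u * Real.log q - (cK u + 2 * cb u * d) * c ^ 2 * q - 2 * u := by
  have hK := cK_bounds hu
  have hb := cb_bounds hu
  have hB := cB_bounds hu
  obtain ⟨hC1, hC2⟩ := room_ends hu hW0 hW1
  have hc2 : 0 < c ^ 2 := pow_pos hc 2
  have hWp : 0 < W := by linarith
  have he0 : 0 < e := pos_of_mul_pos_left ((mul_pos (by linarith) hc2).trans_le hroom) hWp.le
  have hK2 : cK u + 2 * cb u * d ≤ cK u + 2 * cb u := by
    linarith [mul_le_mul_of_nonneg_left hd1 hb.1]
  have hB0 : 0 ≤ cB u := by linarith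
  set x := e * W / c ^ 2 with hx
  have hqx : q ≤ x := (le_div_iff₀ hc2).2 hroom
  have hxW : e * W ≤ x := le_div_self (by positivity) hc2 hc1
  have hend5 : 0 ≤ cB u * Real.log 5 + -((cK u + 2 * cb u * d) * c ^ 2) * 5 + -(2 * u) := by
    have := mul_le_mul_of_nonneg_right hB.1 (Real.log_nonneg (show (1 : ℝ) ≤ 5 by norm_num))
    have := mul_le_mul_of_nonneg_left log_bounds_small.2.1 (show 0 ≤ u by linarith)
    have := (mul_le_of_le_one_right hd' hc1).trans hK2
    linarith
  have hend : 0 ≤ cB u * Real.log x + -((cK u + 2 * cb u * d) * c ^ 2) * x + -(2 * u) := by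
    have ecx : (cK u + 2 * cb u * d) * c ^ 2 * x = (cK u + 2 * cb u * d) * (e * W) := by
      rw [hx]
      field_simp
    rcases le_total e (1 / 2) with h | h
    · set y := W / 2 / c ^ 2 with hy
      have hxy : x ≤ y := by
        refine div_le_div_of_nonneg_right ?_ hc2.le
        linarith [mul_le_mul_of_nonneg_right h hWp.le]
      have hyW : W / 2 ≤ y := le_div_self (by linarith) hc2 hc1
      have hl : Real.log (W / 2) ≤ Real.log y := Real.log_le_log (by linarith) hyW
      refine log_affine_nonneg hB0 (by norm_num) (hq.trans hqx) hxy hend5 ?_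
      have e2 : (cK u + 2 * cb u * d) * c ^ 2 * y = (cK u + 2 * cb u * d) * (W / 2) := by
        rw [hy]
        field_simp
      have := mul_le_mul_of_nonneg_right hK2 (show 0 ≤ W / 2 by linarith)
      have := mul_le_mul_of_nonneg_left hl hB0
      linarith
    · have hl : cB u * Real.log (e * W) ≤ cB u * Real.log x :=
        mul_le_mul_of_nonneg_left (Real.log_le_log (mul_pos he0 hWp) hxW) hB0
      have h2 : (cK u + 2 * cb u * d) * e ≤ cK u * e + 2 * cb u * (1 - e) := by
        have := mul_le_mul_of_nonneg_left (mul_le_mul_of_nonneg_right hd he0.le) hb.1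
        have := mul_le_mul_of_nonneg_left (mul_le_of_le_one_right (sub_nonneg.2 he1) he1) hb.1
        linarith
      have := mul_le_mul_of_nonneg_right h2 hWp.le
      have key : 0 ≤ cB u * Real.log (e * W) + -(cK u - 2 * cb u) * (e * W) +
          -(2 * cb u * W + 2 * u) := by
        refine log_affine_nonneg hB0 (x₀ := W / 2) (x₁ := W) (by linarith) ?_
          (mul_le_of_le_one_left hWp.le he1) ?_ ?_
        · linarith [mul_le_mul_of_nonneg_right h hWp.le]
        · linarith
        · linarith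
      linarith
  have := log_affine_nonneg hB0 (by norm_num) hq hqx hend5 hend
  linarith

/-- At speeds below one half, the part of the integrand is above minus the far loss. -/
theorem far_ge (hu : 14247 / 1000 ≤ u) (hs : s ∈ Ioo (0 : ℝ) 1) (ht : t ∈ Ioo (0 : ℝ) 1)
    (hc : 0 < c) (hc2 : c ^ 2 = 1 - s ^ 2) (hr : 0 < r) (hr2 : r ≤ 1 / 2)
    (hroom : 1 / r * c ^ 2 ≤ (1 - t) * (u ^ 2 * s + u)) :
    -farLoss u s ≤ core u c s t r := by
  have hK := cK_bounds hu
  have hb := cb_bounds hu
  have hB := cB_bounds hu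
  have hu0 : 0 < u := by linarith
  have hc1 : c ^ 2 ≤ 1 := by rw [hc2]; linarith [sq_nonneg s]
  have hcu : c ≤ 1 := (pow_le_one_iff_of_nonneg hc.le two_ne_zero).1 hc1
  set q := 1 / r with hq
  have hq2 : 2 ≤ q := (le_div_iff₀ hr).2 (by linarith)
  have hlq : Real.log q = -Real.log r := by rw [hq, one_div, Real.log_inv]
  have hl0 : 0 ≤ Real.log q := Real.log_nonneg (by linarith)
  have hA := mul_le_mul_of_nonneg_right (le_div_self (by linarith) hc hcu : cB u ≤ cB u / c) hl0
  set d := t - s with hd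
  have hd1 : d ≤ 1 := by linarith [ht.2, hs.1]
  have hd0 : -1 ≤ d := by linarith [ht.1, hs.2]
  have hL : 0 ≤ cK u + 2 * cb u * d := by linarith [mul_le_mul_of_nonneg_left hd0 hb.1]
  have hU0 : 0 ≤ 1 - s * t := by linarith [mul_le_of_le_one_right hs.1.le ht.2.le, hs.2]
  have hU1 : 1 - s * t ≤ 1 := by linarith [mul_pos hs.1 ht.1]
  have hw0 : 0 ≤ 1 - r := by linarith
  have hP : 2 * u * (1 - s * t) * (r - 1) ≥ -(2 * u * (1 - r)) := by
    linarith [mul_le_mul_of_nonneg_left (mul_le_of_le_one_left hw0 hU1) hu0.le]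
  have hsd : 0 ≤ 3 * u * s * d ^ 2 := mul_nonneg (by nlinarith [hs.1]) (sq_nonneg d)
  have hfar : 0 ≤ farLoss u s :=
    mul_nonneg (le_max_left _ _) (mul_nonneg (by positivity) hs.1.le)
  have hW0 : u ≤ u ^ 2 * s + u := by nlinarith [mul_pos (mul_pos hu0 hu0) hs.1]
  simp only [core, ← hd, ← hlq, ← hq]
  rcases le_total (u * s) (Real.log u + 22 / 10) with h | h
  · have hW1 : u ^ 2 * s + u ≤ u * (Real.log u + 32 / 10) := by
      linarith [mul_le_mul_of_nonneg_left h hu0.le]
    rcases le_total q 5 with h5 | h5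
    · have hQ : (cK u + 2 * cb u * d) * c ^ 2 ≤ cK u + 2 * cb u :=
        (mul_le_of_le_one_right hL hc1).trans (by linarith [mul_le_mul_of_nonneg_left hd1 hb.1])
      have := low_ge hu hQ hq2 h5
      have e : 1 - 1 / q = 1 - r := by rw [hq, one_div_one_div]
      rw [e] at this
      linarith
    · have := high_ge hu (e := 1 - t) (d := d) (by linarith [hs.1]) hL (by linarith [ht.1]) hd1
        hc hc1 hW0 hW1 h5 hroom
      linarith [mul_nonneg hL (sq_nonneg c), mul_le_mul_of_nonneg_left (show 1 - r ≤ 1 by linarith) hu0.le]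
  · have hramp : rampFar u s = 1 := by
      rw [rampFar, min_eq_left (by linarith)]
      norm_num
    have h1 : (cK u + 2 * cb u * d) * c ^ 2 * q ≤ 15666 / 10000 * (u ^ 2 * s + u) := by
      rw [mul_assoc]
      refine mul_le_mul (by linarith [mul_le_mul_of_nonneg_left hd1 hb.1]) ?_ (by positivity)
        (by norm_num)
      rw [mul_comm]
      exact hroom.trans (mul_le_of_le_one_left (by linarith) (by linarith [ht.1]))
    have h2 : u * (4845 / 1000) ≤ u * (u * s) :=
      mul_le_mul_of_nonneg_left (by linarith [log_ge hu]) hu0.le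
    have hA0 : 0 ≤ cB u * Real.log q := mul_nonneg (by linarith) hl0
    rw [farLoss, hramp, one_mul]
    linarith [mul_le_mul_of_nonneg_left (show 1 - r ≤ 1 by linarith) hu0.le,
      mul_nonneg hL (sq_nonneg c)]

end Vale.Agent.P237.Petty.Cor.Huge
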