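import Vale.Agent.P237.Petty.Cor.Huge.Moments

/-!
# P237: the mean of the losses

In the orders from two hundred on the losses, against the circle, are below its mass over `p + 2`.
-/

namespace Vale.Agent.P237.Petty.Cor.Huge

open MeasureTheory Set intervalIntegral
open Ident (half)

variable {u : ℝ}

/-- Cancels a power of the half circle under a loss. -/
theorem pow_mul_div_pow (c X : ℝ) {j : ℕ} (hj : j ≠ 0) (k : ℕ) :
    c ^ (j + k) * (X / c ^ k) = c ^ j * X := by
  rcases eq_or_ne c 0 with rfl | hc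
  · simp [zero_pow hj, zero_pow (show j + k ≠ 0 by omega)]
  · rw [pow_add]
    field_simp

/-- Closed moments give their bounds in letters. -/
theorem moment_arith {M h m0 m1 m2 m3 m4 m5 : ℝ} (hM : 203 ≤ M) (h0 : 0 < h)
    (e0 : (M - 2) * m0 = (M - 1) * h) (e1 : (M - 2) * m1 = h)
    (e2 : (M - 2) * (M + 1) * m2 = 3 * h) (e3 : (M - 2) * (M + 1) * (M + 3) * m3 = 15 * h)
    (e4 : (M + 1) * (M - 2) * (M - 4) * (M - 6) * m4 = 105 * h) (e5 : (M + 3) * m5 = 9 * m4)
    (n2 : 0 ≤ m2) (n3 : 0 ≤ m3) (n4 : 0 ≤ m4) :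
    m0 ≤ 1005 / 1000 * h ∧ h ≤ M * m1 ∧ M * m1 ≤ 101 / 100 * h ∧ 0 ≤ m2 ∧
      M ^ 2 * m2 ≤ 3016 / 1000 * h ∧ M ^ 3 * m3 ≤ 15 * h ∧
      M ^ 4 * m4 ≤ 112 * h ∧ M ^ 5 * m5 ≤ 1008 * h := by
  have n1 : 0 ≤ m1 := nonneg_of_mul_nonneg_right
    (show 0 ≤ (M - 2) * m1 by rw [e1]; exact h0.le) (by linarith)
  have hm := mul_le_mul_of_nonneg_right (show M ≤ 101 / 100 * (M - 2) by linarith) n1
  have hMM : 203 * M ≤ M * M := mul_le_mul_of_nonneg_right hM (by linarith)
  have q2 : 995 / 1000 * (M * M) ≤ (M - 2) * (M + 1) := by linarith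
  have hq2 := mul_le_mul_of_nonneg_right q2 n2
  have q3 : M ^ 3 ≤ (M - 2) * (M + 1) * (M + 3) := by
    linarith [mul_le_mul_of_nonneg_left hM (show 0 ≤ M by linarith)]
  have hq3 := mul_le_mul_of_nonneg_right q3 n3
  have q4 : 945 / 1000 * M ^ 4 ≤ (M + 1) * (M - 2) * (M - 4) * (M - 6) := by
    have h1 : 95 / 100 * (M * M) ≤ (M - 4) * (M - 6) := by linarith
    have := mul_le_mul q2 h1 (mul_nonneg (by norm_num) (mul_self_nonneg M))
      (le_trans (mul_nonneg (by norm_num) (mul_self_nonneg M)) q2)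
    linarith [mul_nonneg (mul_self_nonneg M) (mul_self_nonneg M)]
  have hq4 := mul_le_mul_of_nonneg_right q4 n4
  have h4 : M ^ 4 * m4 ≤ 112 * h := by linarith
  refine ⟨?_, by linarith, by linarith, n2, by linarith, by linarith, h4, ?_⟩
  · refine le_of_mul_le_mul_left ?_ (show 0 < M - 2 by linarith)
    rw [e0, ← mul_assoc]
    exact mul_le_mul_of_nonneg_right (by linarith) h0.le
  · have n5 : 0 ≤ m5 := nonneg_of_mul_nonneg_right
      (show 0 ≤ (M + 3) * m5 by rw [e5]; linarith) (by linarith)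
    have h5 := mul_le_mul_of_nonneg_left (le_of_eq e5) (pow_nonneg (show 0 ≤ M by linarith) 4)
    have := mul_nonneg (pow_nonneg (show 0 ≤ M by linarith) 4) n5
    linarith

/-- The moments that occur, against the mass of the circle. -/
theorem moment_bounds {i : ℕ} (hi : 195 ≤ i) {M h : ℝ} (hM : M = (i : ℝ) + 8)
    (hh : h = half (i + 6)) :
    moment (i + 4) 0 ≤ 1005 / 1000 * h ∧
    h ≤ M * moment (i + 4) 1 ∧ M * moment (i + 4) 1 ≤ 101 / 100 * h ∧
    0 ≤ moment (i + 4) 2 ∧ M ^ 2 * moment (i + 4) 2 ≤ 3016 / 1000 * h ∧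
    M ^ 3 * moment (i + 4) 3 ≤ 15 * h ∧
    M ^ 4 * moment i 4 ≤ 112 * h ∧ M ^ 5 * moment i 5 ≤ 1008 * h := by
  have hi' : (195 : ℝ) ≤ i := by exact_mod_cast hi
  have hM0 : 203 ≤ M := by linarith
  have h0 : 0 < h := hh ▸ Ident.half_pos _
  have eI : (i : ℝ) = M - 8 := by linarith
  have s0 := Ident.half_step (i + 4)
  have s1 := Ident.half_step (i + 2)
  have s2 := Ident.half_step i
  rw [show i + 4 + 2 = i + 6 from rfl, ← hh] at s0
  rw [show i + 2 + 2 = i + 4 from rfl] at s1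
  have a1 := moment_step (i + 4) 0
  have a2 := moment_step (i + 4) 1
  have a3 := moment_step (i + 4) 2
  have b1 := moment_step i 0
  have b2 := moment_step i 1
  have b3 := moment_step i 2
  have b4 := moment_step i 3
  have b5 := moment_step i 4
  rw [moment_zero] at a1 b1
  simp only [Nat.zero_add, show 1 + 1 = 2 from rfl, show 2 + 1 = 3 from rfl,
    show 3 + 1 = 4 from rfl, show 4 + 1 = 5 from rfl] at a1 a2 a3 b1 b2 b3 b4 b5
  rw [moment_zero]
  push_cast at s0 s1 s2 a1 a2 a3 b1 b2 b3 b4 b5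
  rw [eI] at s0 s1 s2 a1 a2 a3 b1 b2 b3 b4 b5
  have e1 : (M - 2) * moment (i + 4) 1 = h := by
    refine mul_left_cancel₀ (show M - 1 ≠ 0 by linarith) ?_
    linear_combination (M - 2) * a1 - s0 + (0 : ℝ) * b1
  have e2 : (M - 2) * (M + 1) * moment (i + 4) 2 = 3 * h := by
    linear_combination (M - 2) * a2 + 3 * e1
  have e3 : (M - 2) * (M + 1) * (M + 3) * moment (i + 4) 3 = 15 * h := by
    linear_combination (M - 2) * (M + 1) * a3 + 5 * e2
  have e4 : (M + 1) * (M - 2) * (M - 4) * (M - 6) * moment i 4 = 105 * h := by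
    refine mul_left_cancel₀ (show (M - 1) * (M - 3) * (M - 5) ≠ 0 from
      mul_ne_zero (mul_ne_zero (by linarith) (by linarith)) (by linarith)) ?_
    linear_combination (M - 2) * (M - 4) * (M - 6) * (M - 5) * (M - 3) * (M - 1) * b4 +
      7 * (M - 2) * (M - 4) * (M - 6) * (M - 5) * (M - 3) * b3 +
      35 * (M - 2) * (M - 4) * (M - 6) * (M - 5) * b2 +
      105 * (M - 2) * (M - 4) * (M - 6) * b1 -
      105 * (M - 2) * (M - 4) * s2 - 105 * (M - 5) * (M - 2) * s1 -
      105 * (M - 5) * (M - 3) * s0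
  have p2 : 0 < (M - 2) * (M + 1) := mul_pos (by linarith) (by linarith)
  have n2 : 0 ≤ moment (i + 4) 2 := nonneg_of_mul_nonneg_right (by linarith) p2
  have n3 : 0 ≤ moment (i + 4) 3 :=
    nonneg_of_mul_nonneg_right
      (show 0 ≤ (M - 2) * (M + 1) * (M + 3) * moment (i + 4) 3 by rw [e3]; linarith)
      (mul_pos p2 (by linarith))
  have p4 : 0 < (M + 1) * (M - 2) * (M - 4) * (M - 6) :=
    mul_pos (mul_pos (mul_pos (by linarith) (by linarith)) (by linarith)) (by linarith)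
  have n4 : 0 ≤ moment i 4 := nonneg_of_mul_nonneg_right
    (show 0 ≤ (M + 1) * (M - 2) * (M - 4) * (M - 6) * moment i 4 by rw [e4]; linarith) p4
  exact moment_arith hM0 h0 (show (M - 2) * half (i + 4) = (M - 1) * h by linarith) e1 e2 e3 e4
    (show (M + 3) * moment i 5 = 9 * moment i 4 by linarith) n2 n3 n4

/-- The moments of the first order residue, in letters. -/
theorem quad_num (hu : 14247 / 1000 ≤ u) {M h m0 m1 m2 m3 : ℝ} (hM : u ^ 2 = M)
    (hM0 : 203 ≤ M) (h0 : 0 < h)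
    (g0 : m0 ≤ 1005 / 1000 * h) (g1 : h ≤ M * m1) (g1' : M * m1 ≤ 101 / 100 * h) (g2 : 0 ≤ m2)
    (g2' : M ^ 2 * m2 ≤ 3016 / 1000 * h) (g3 : M ^ 3 * m3 ≤ 15 * h) :
    M * (wA u * (2 / u) ^ 2 * m0 + (wC u * (2 / u) ^ 2 - 2 * wA u * (2 / u) * cG u) * m1 +
      (wA u * cG u ^ 2 - 2 * wC u * (2 / u) * cG u) * m2 + wC u * cG u ^ 2 * m3) ≤ 2860 / 100 * h := by
  have hu0 : 0 < u := by linarith
  have hM1 : 0 < M := by linarith
  obtain ⟨hA0, hA1⟩ := wA_bounds hu
  obtain ⟨hC0, hC1⟩ := wC_bounds hu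
  obtain ⟨hG0, hG1⟩ := cG_bounds hu
  have hG : 0 ≤ cG u := by linarith
  have hCp : 0 ≤ wC u := by linarith
  have hG2 : cG u ^ 2 / M ≤ 97382 / 10000 := by
    rw [div_le_iff₀ hM1, ← hM]
    refine (pow_le_pow_left₀ hG hG1 2).trans ?_
    nlinarith [sq_nonneg u]
  have hC : wC u / M ≤ 392 / 10000 := by
    rw [div_le_iff₀ hM1, ← hM]
    nlinarith [mul_le_mul_of_nonneg_right hu hu0.le]
  have hCd : 0 ≤ wC u / M := div_nonneg hCp hM1.le
  have he2 : (2 / u) ^ 2 = 4 / M := by rw [← hM]; ring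
  have heG : 6 ≤ 2 / u * cG u := by
    rw [div_mul_eq_mul_div, le_div_iff₀ hu0]
    linarith
  have hm0' : 0 ≤ M * m1 := h0.le.trans g1
  have t0 : wA u * (2 / u) ^ 2 * m0 * M ≤ 10388 / 10000 * 4 * (1005 / 1000 * h) := by
    rw [he2, show wA u * (4 / M) * m0 * M = wA u * 4 * m0 by field_simp]
    refine le_trans (mul_le_mul_of_nonneg_left g0 (by linarith)) ?_
    exact mul_le_mul_of_nonneg_right (by linarith) (by linarith)
  have t1 : wC u * (2 / u) ^ 2 * m1 * M ≤ 392 / 10000 * 4 * (101 / 100 * h) := by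
    rw [he2, show wC u * (4 / M) * m1 * M = wC u / M * 4 * (M * m1) by field_simp]
    exact mul_le_mul (mul_le_mul_of_nonneg_right hC (by norm_num)) g1' hm0' (by norm_num)
  have t1' : 12 * h ≤ 2 * wA u * (2 / u) * cG u * m1 * M := by
    rw [show 2 * wA u * (2 / u) * cG u * m1 * M = 2 * (wA u * (2 / u * cG u)) * (M * m1) by ring]
    exact mul_le_mul (by linarith [mul_le_mul hA0 heG (by norm_num) (by linarith)]) g1 h0.le
      (by positivity)
  have t2 : wA u * cG u ^ 2 * m2 * M ≤ 10388 / 10000 * (97382 / 10000) * (3016 / 1000 * h) := by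
    rw [show wA u * cG u ^ 2 * m2 * M = wA u * (cG u ^ 2 / M) * (M ^ 2 * m2) by field_simp]
    exact mul_le_mul (mul_le_mul hA1 hG2 (by positivity) (by norm_num)) g2'
      (mul_nonneg (sq_nonneg M) g2) (by norm_num)
  have t2' : 0 ≤ 2 * wC u * (2 / u) * cG u * m2 * M :=
    mul_nonneg (mul_nonneg (by positivity) g2) hM1.le
  have t3 : wC u * cG u ^ 2 * m3 * M ≤ 392 / 10000 * (97382 / 10000) * (15 * h) := by
    rw [show wC u * cG u ^ 2 * m3 * M = wC u / M * (cG u ^ 2 / M) * (M ^ 3 * m3) by field_simp]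
    refine le_trans (mul_le_mul_of_nonneg_left g3 (by positivity)) ?_
    exact mul_le_mul_of_nonneg_right (mul_le_mul hC hG2 (by positivity) (by norm_num)) (by linarith)
  linarith

/-- The moments of the higher residue, in letters. -/
theorem high_num (hu : 14247 / 1000 ≤ u) {M h m4 m5 : ℝ} (hM : u ^ 2 = M)
    (hM0 : 203 ≤ M) (h0 : 0 < h) (g4 : M ^ 4 * m4 ≤ 112 * h) (g5 : M ^ 5 * m5 ≤ 1008 * h) :
    M * ((cB u / 2) ^ 2 * (wA u * m4 + wC u * m5)) ≤ 5 / 1000 * h := by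
  have hu0 : 0 < u := by linarith
  have hM1 : 0 < M := by linarith
  obtain ⟨hA0, hA1⟩ := wA_bounds hu
  obtain ⟨hC0, hC1⟩ := wC_bounds hu
  have hCp : 0 ≤ wC u := by linarith
  have hC : wC u / M ≤ 392 / 10000 := by
    rw [div_le_iff₀ hM1, ← hM]
    nlinarith [mul_le_mul_of_nonneg_right hu hu0.le]
  have hCd : 0 ≤ wC u / M := div_nonneg hCp hM1.le
  have hH : (cB u / 2) ^ 2 ≤ 10823 / 10000 * M := by
    refine (pow_le_pow_left₀ (by linarith [(cB_bounds hu).1])
      (show cB u / 2 ≤ 10403 / 10000 * u by linarith [(cB_bounds hu).2]) 2).trans ?_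
    rw [mul_pow, hM]
    linarith
  have u4 : M ^ 4 * (wA u * m4 + wC u * m5) ≤ (10388 / 10000 * 112 + 392 / 10000 * 1008) * h := by
    have a4 := mul_le_mul_of_nonneg_left g4 (show 0 ≤ wA u by linarith)
    have a5 := mul_le_mul_of_nonneg_left g5 hCd
    have e : wC u / M * (M ^ 5 * m5) = M ^ 4 * (wC u * m5) := by field_simp
    linarith [mul_le_mul_of_nonneg_right hA1 (show 0 ≤ 112 * h by linarith),
      mul_le_mul_of_nonneg_right hC (show 0 ≤ 1008 * h by linarith)]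
  have : (cB u / 2) ^ 2 / M ^ 3 ≤ 10823 / 10000 / 203 ^ 2 := by
    refine le_trans (div_le_div_of_nonneg_right hH (by positivity)) ?_
    rw [show 10823 / 10000 * M / M ^ 3 = 10823 / 10000 / M ^ 2 by field_simp]
    exact div_le_div_of_nonneg_left (by norm_num) (by norm_num)
      (pow_le_pow_left₀ (by norm_num) hM0 2)
  have := mul_le_mul_of_nonneg_left u4 (show 0 ≤ (cB u / 2) ^ 2 / M ^ 3 by positivity)
  have e : (cB u / 2) ^ 2 / M ^ 3 * (M ^ 4 * (wA u * m4 + wC u * m5)) =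
      M * ((cB u / 2) ^ 2 * (wA u * m4 + wC u * m5)) := by field_simp
  nlinarith [mul_le_mul_of_nonneg_right (show (cB u / 2) ^ 2 / M ^ 3 ≤ 27 / 1000000 by linarith)
    (show 0 ≤ (10388 / 10000 * 112 + 392 / 10000 * 1008) * h by linarith)]


/-- The main loss, in letters. -/
theorem main_num (hu : 14247 / 1000 ≤ u) {M h m0 m1 m2 m3 m4 m5 : ℝ} (hM : u ^ 2 = M)
    (hM0 : 203 ≤ M) (h0 : 0 < h)
    (g0 : m0 ≤ 1005 / 1000 * h) (g1 : h ≤ M * m1) (g1' : M * m1 ≤ 101 / 100 * h) (g2 : 0 ≤ m2)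
    (g2' : M ^ 2 * m2 ≤ 3016 / 1000 * h) (g3 : M ^ 3 * m3 ≤ 15 * h)
    (g4 : M ^ 4 * m4 ≤ 112 * h) (g5 : M ^ 5 * m5 ≤ 1008 * h) :
    u * (M * (13 / 10 / (2 * rho u) *
      (21 / 20 * (wA u * (2 / u) ^ 2 * m0 + (wC u * (2 / u) ^ 2 - 2 * wA u * (2 / u) * cG u) * m1 +
          (wA u * cG u ^ 2 - 2 * wC u * (2 / u) * cG u) * m2 + wC u * cG u ^ 2 * m3) +
        21 * (cB u / 2) ^ 2 * (wA u * m4 + wC u * m5)))) ≤ 1126 / 100 * h := by
  have hMT := quad_num hu hM hM0 h0 g0 g1 g1' g2 g2' g3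
  have hMU := high_num hu hM hM0 h0 g4 g5
  set T := wA u * (2 / u) ^ 2 * m0 + (wC u * (2 / u) ^ 2 - 2 * wA u * (2 / u) * cG u) * m1 +
    (wA u * cG u ^ 2 - 2 * wC u * (2 / u) * cG u) * m2 + wC u * cG u ^ 2 * m3
  have hrho := rho_ge hu
  have hr : u * (13 / 10 / (2 * rho u)) ≤ 37344 / 100000 := by
    rw [mul_div_assoc', div_le_iff₀ (by linarith [(rho_pos hu).1])]
    linarith
  have hr0 : 0 ≤ u * (13 / 10 / (2 * rho u)) :=
    mul_nonneg (by linarith) (div_nonneg (by norm_num) (by linarith [(rho_pos hu).1]))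
  calc u * (M * (13 / 10 / (2 * rho u) *
        (21 / 20 * T + 21 * (cB u / 2) ^ 2 * (wA u * m4 + wC u * m5))))
      = u * (13 / 10 / (2 * rho u)) *
          (21 / 20 * (M * T) + 21 * (M * ((cB u / 2) ^ 2 * (wA u * m4 + wC u * m5)))) := by ring
    _ ≤ u * (13 / 10 / (2 * rho u)) * (21 / 20 * (2860 / 100 * h) + 21 * (5 / 1000 * h)) :=
        mul_le_mul_of_nonneg_left (by linarith) hr0
    _ ≤ 37344 / 100000 * (21 / 20 * (2860 / 100 * h) + 21 * (5 / 1000 * h)) :=
        mul_le_mul_of_nonneg_right hr (by positivity)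
    _ ≤ _ := by linarith

/-- The main loss against the circle, as a polynomial in `arc s` and `s`. -/
theorem main_pointwise {i : ℕ} (hi : i ≠ 0) (u s : ℝ) :
    arc s ^ (i + 6) * mainLoss u (arc s) s = 13 / 10 / (2 * rho u) *
      (21 / 20 * (wA u * (2 / u) ^ 2 * (arc s ^ (i + 4) * s ^ (2 * 0)) +
          (wC u * (2 / u) ^ 2 - 2 * wA u * (2 / u) * cG u) * (arc s ^ (i + 4) * s ^ (2 * 1)) +
          (wA u * cG u ^ 2 - 2 * wC u * (2 / u) * cG u) * (arc s ^ (i + 4) * s ^ (2 * 2)) +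
          wC u * cG u ^ 2 * (arc s ^ (i + 4) * s ^ (2 * 3))) +
        21 * (cB u / 2) ^ 2 *
          (wA u * (arc s ^ i * s ^ (2 * 4)) + wC u * (arc s ^ i * s ^ (2 * 5)))) := by
  have e2 := pow_mul_div_pow (arc s)
    (21 / 20 * (2 / u - cG u * s ^ 2) ^ 2) (show i + 4 ≠ 0 by omega) 2
  have e6 := pow_mul_div_pow (arc s) (21 * (cB u / 2) ^ 2 * s ^ 8) hi 6
  rw [show i + 4 + 2 = i + 6 from rfl] at e2
  rw [mainLoss]
  linear_combination (13 / 10 / (2 * rho u) * (wA u + wC u * s ^ 2)) * (e2 + e6)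

/-- The main loss against the circle. -/
theorem integral_main_le (hu : 14247 / 1000 ≤ u) {i : ℕ} (hi : 195 ≤ i)
    (hM : u ^ 2 = (i : ℝ) + 8) :
    u * (((i : ℝ) + 8) * ∫ s in (0 : ℝ)..1, arc s ^ (i + 6) * mainLoss u (arc s) s) ≤
      1126 / 100 * half (i + 6) := by
  obtain ⟨g0, g1, g1', g2, g2', g3, g4, g5⟩ := moment_bounds hi (M := (i : ℝ) + 8) rfl rfl
  have hi' : (195 : ℝ) ≤ i := by exact_mod_cast hi
  refine le_trans (le_of_eq ?_)
    (main_num hu hM (by linarith) (Ident.half_pos _) g0 g1 g1' g2 g2' g3 g4 g5)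
  have J := integrable_moment
  congr 2
  rw [intervalIntegral.integral_congr fun s _ => main_pointwise (by omega) u s]
  simp only [intervalIntegral.integral_const_mul]
  congr 1
  rw [intervalIntegral.integral_add, intervalIntegral.integral_const_mul,
    intervalIntegral.integral_const_mul, intervalIntegral.integral_add, intervalIntegral.integral_add,
    intervalIntegral.integral_add, intervalIntegral.integral_add]
  · simp only [intervalIntegral.integral_const_mul, moment]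
  all_goals exact Continuous.intervalIntegrable (by
    have := continuous_arc
    fun_prop) _ _

/-- The middle loss, in letters. -/
theorem mid_num (hu : 14247 / 1000 ≤ u) (hM : 203 ≤ u ^ 2) {h C : ℝ} (hh : 1 / u ≤ h)
    (hC0 : 0 ≤ C) (hC : C ≤ Real.exp (-((u ^ 2 - 2) * (5396 / 100000)))) :
    u * (u ^ 2 * (111 / 10 * u * (C / (u ^ 2 - 2)))) ≤ 68 / 100 * h := by
  have hu0 : 0 < u := by linarith
  set M := u ^ 2 with hMd
  set k : ℝ := 5396 / 100000 with hk
  have hgrow : u / (14247 / 1000) * (M / 203) * Real.exp (-((M - 2) * k)) ≤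
      Real.exp (-(201 * k)) * (1425 / 1424) := by
    have h1 : u / (14247 / 1000) ≤ 1425 / 1424 * Real.exp ((M - 203) * (k / 2)) := by
      refine le_trans ?_ (mul_le_mul_of_nonneg_left (Real.add_one_le_exp _) (by norm_num))
      have := mul_le_mul_of_nonneg_right hu hu0.le
      have e : u * u = M := by rw [hMd]; ring
      simp only [hk]
      linarith
    have h2 : M / 203 ≤ Real.exp ((M - 203) * (k / 2)) := by
      refine le_trans ?_ (Real.add_one_le_exp _)
      simp only [hk]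
      linarith
    refine (mul_le_mul_of_nonneg_right (mul_le_mul h1 h2 (by positivity) (by positivity))
      (Real.exp_pos _).le).trans (le_of_eq ?_)
    rw [mul_assoc (1425 / 1424 : ℝ), mul_assoc (1425 / 1424 : ℝ), ← Real.exp_add, ← Real.exp_add,
      mul_comm]
    ring_nf
  have hnum : Real.exp (-(201 * k)) ≤ 208 / 10000000 := by
    have he : Real.exp 1 ^ 10 = Real.exp 10 := by rw [← Real.exp_nat_mul]; norm_num
    have h1 := pow_le_pow_left₀ (by norm_num) Real.exp_one_gt_d9.le 10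
    rw [he] at h1
    have h2 := Real.quadratic_le_exp_of_nonneg (show (0 : ℝ) ≤ 84 / 100 by norm_num)
    have h3 : 1 / (208 / 10000000) ≤ Real.exp (201 * k) := by
      refine le_trans ?_ (Real.exp_le_exp.2 (show 10 + 84 / 100 ≤ 201 * k by simp only [hk]; norm_num))
      rw [Real.exp_add]
      exact le_trans (by norm_num) (mul_le_mul h1 h2 (by norm_num) (Real.exp_pos _).le)
    rw [Real.exp_neg]
    exact inv_le_of_inv_le₀ (by norm_num) (by rw [← one_div]; exact h3)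
  have h3 : u * (M * C) ≤ 14247 / 1000 * 203 * (208 / 10000000 * (1425 / 1424)) := by
    calc u * (M * C) ≤ u * (M * Real.exp (-((M - 2) * k))) :=
          mul_le_mul_of_nonneg_left (mul_le_mul_of_nonneg_left hC (by linarith)) hu0.le
      _ = 14247 / 1000 * 203 * (u / (14247 / 1000) * (M / 203) * Real.exp (-((M - 2) * k))) := by
          ring
      _ ≤ _ := mul_le_mul_of_nonneg_left (hgrow.trans (mul_le_mul_of_nonneg_right hnum
          (by norm_num))) (by norm_num)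
  have h4 : M / (M - 2) ≤ 203 / 201 := by
    rw [div_le_iff₀ (by linarith)]
    linarith
  calc u * (M * (111 / 10 * u * (C / (M - 2)))) =
        111 / 10 * (M / (M - 2)) * (u * (u ^ 2 * C)) * (1 / u) := by field_simp
    _ ≤ _ := by
      refine le_trans (mul_le_mul (mul_le_mul (mul_le_mul_of_nonneg_left h4 (by norm_num)) h3
        (mul_nonneg hu0.le (mul_nonneg (by linarith) hC0)) (by norm_num)) hh (by positivity)
        (by norm_num)) ?_
      linarith [show 0 ≤ 1 / u from by positivity]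

/-- The far loss, in letters. -/
theorem far_num (hu : 14247 / 1000 ≤ u) {h : ℝ} (hh : 1 / u ≤ h) :
    u * (u ^ 2 * (231 / 100 * u ^ 2 *
      (Real.exp (-(u ^ 2 * ((Real.log u + 219 / 100) / u) ^ 2 / 2)) / u ^ 2))) ≤ 81 / 100 * h := by
  have hu0 : 0 < u := by linarith
  have hL := log_ge hu
  set L := Real.log u with hLd
  have hexp : u ^ 4 = Real.exp (4 * L) := by
    rw [show (4 : ℝ) * L = ((4 : ℕ) : ℝ) * L by norm_num, Real.exp_nat_mul, hLd, Real.exp_log hu0]
  have hnum : Real.exp (-(11 / 10)) ≤ 335 / 1000 := by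
    have h2 := Real.quadratic_le_exp_of_nonneg (show (0 : ℝ) ≤ 1 / 10 by norm_num)
    rw [Real.exp_neg]
    refine inv_le_of_inv_le₀ (by norm_num) ?_
    rw [show (11 / 10 : ℝ) = 1 + 1 / 10 by norm_num, Real.exp_add]
    exact le_trans (by norm_num)
      (mul_le_mul Real.exp_one_gt_d9.le h2 (by norm_num) (Real.exp_pos _).le)
  have hexp2 : u ^ 4 * Real.exp (-(u ^ 2 * ((L + 219 / 100) / u) ^ 2 / 2)) ≤ 335 / 1000 := by
    refine le_trans ?_ hnum
    rw [hexp, ← Real.exp_add, Real.exp_le_exp,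
      show u ^ 2 * ((L + 219 / 100) / u) ^ 2 = (L + 219 / 100) ^ 2 by field_simp]
    nlinarith [mul_le_mul hL hL (by norm_num) (by linarith)]
  calc u * (u ^ 2 * (231 / 100 * u ^ 2 * (Real.exp (-(u ^ 2 * ((L + 219 / 100) / u) ^ 2 / 2)) / u ^ 2)))
      = 231 / 100 * (u ^ 4 * Real.exp (-(u ^ 2 * ((L + 219 / 100) / u) ^ 2 / 2))) * (1 / u) := by
        field_simp
    _ ≤ 231 / 100 * (335 / 1000) * h :=
        mul_le_mul (mul_le_mul_of_nonneg_left hexp2 (by norm_num)) hh (by positivity) (by norm_num)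
    _ ≤ _ := by linarith [show 0 ≤ 1 / u from by positivity]

end Vale.Agent.P237.Petty.Cor.Huge
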