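import Vale.Agent.P237.Petty.Cor.Huge.Params
import Vale.Agent.P237.Petty.Cor.Scalar

/-!
# P237: the part of the integrand at speeds from one half on

The gauge of the speed absorbs the linear term; the residue is the square of a term in `s` and a
square of `d`, the latter absorbed by the potential up to a small centre and a far region.
-/

namespace Vale.Agent.P237.Petty.Cor.Huge

open Set

variable {u c s t r : ℝ}

theorem inv_arc_bounds (hc : 0 < c) (hc2 : c ^ 2 = 1 - s ^ 2) :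
    s ^ 2 / 2 ≤ 1 / c - 1 ∧ 1 / c - 1 ≤ s ^ 2 / 2 + s ^ 4 / (2 * c ^ 2) := by
  have h1 : c ≤ 1 - s ^ 2 / 2 := by nlinarith [sq_nonneg (c - 1)]
  constructor
  · have : (1 + s ^ 2 / 2) * c ≤ 1 := by
      nlinarith [mul_le_mul_of_nonneg_left h1 (show 0 ≤ 1 + s ^ 2 / 2 by positivity),
        sq_nonneg (s ^ 2)]
    have := (le_div_iff₀ hc).2 this
    linarith
  · have e : s ^ 4 / (2 * c ^ 2) = (1 - c ^ 2) ^ 2 / (2 * c ^ 2) := by rw [hc2]; ring
    have e' : (s ^ 2 / 2 + (1 - c ^ 2) ^ 2 / (2 * c ^ 2)) - (1 / c - 1) =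
        (1 - c) ^ 2 / (2 * c ^ 2) := by
      rw [show s ^ 2 = 1 - c ^ 2 by linarith]
      field_simp
      ring
    have : 0 ≤ (1 - c) ^ 2 / (2 * c ^ 2) := by positivity
    linarith

/-- The residue in `s` is inside `mainLoss`. -/
theorem main_le (hu : 14247 / 1000 ≤ u) (hs : s ∈ Ioo (0 : ℝ) 1) (hc : 0 < c)
    (hc2 : c ^ 2 = 1 - s ^ 2) :
    13 / 10 * ((2 * u + cK u) * c ^ 2 - cB u / c) ^ 2 * ((1 + s) * (1 + kappa u * s)) /
      (2 * rho u * c ^ 2) ≤ mainLoss u c s := by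
  have hk := kappa_bounds hu
  have hr := (rho_pos hu).1
  have hB : 0 ≤ cB u := by linarith [(cB_bounds hu).1]
  obtain ⟨i0, i1⟩ := inv_arc_bounds hc hc2
  have hW0 : 0 ≤ (1 + s) * (1 + kappa u * s) :=
    mul_nonneg (by linarith [hs.1]) (by nlinarith [hk.1, hs.1])
  have hW : (1 + s) * (1 + kappa u * s) ≤ wA u + wC u * s ^ 2 := by
    have : s ≤ 1 / (2 * u) + u * s ^ 2 / 2 := by
      rw [div_add_div _ _ (by linarith) (by norm_num), le_div_iff₀ (by linarith)]
      nlinarith [sq_nonneg (u * s - 1)]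
    have := mul_le_mul_of_nonneg_left this (show 0 ≤ 1 + kappa u by linarith)
    simp only [wA, wC]
    ring_nf at this ⊢
    linarith
  set v := 2 / u - cG u * s ^ 2 with hv
  set w := cB u * (1 / c - 1 - s ^ 2 / 2) with hw
  have hE : (2 * u + cK u) * c ^ 2 - cB u / c = v - w := by
    simp only [hv, hw, cG, cB, hc2]
    ring
  have hw0 : 0 ≤ w := mul_nonneg hB (by linarith)
  have hw1 : w ≤ cB u / 2 * (s ^ 4 / c ^ 2) := by
    refine (mul_le_mul_of_nonneg_left (show 1 / c - 1 - s ^ 2 / 2 ≤ s ^ 4 / (2 * c ^ 2) by linarith)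
      hB).trans (le_of_eq ?_)
    ring
  have hsq : (v - w) ^ 2 ≤ 21 / 20 * v ^ 2 + 21 * (cB u / 2 * (s ^ 4 / c ^ 2)) ^ 2 := by
    have := pow_le_pow_left₀ hw0 hw1 2
    nlinarith [sq_nonneg (v + 20 * w)]
  rw [hE, mainLoss, ← hv]
  calc 13 / 10 * (v - w) ^ 2 * ((1 + s) * (1 + kappa u * s)) / (2 * rho u * c ^ 2)
      ≤ 13 / 10 * (21 / 20 * v ^ 2 + 21 * (cB u / 2 * (s ^ 4 / c ^ 2)) ^ 2) *
          (wA u + wC u * s ^ 2) / (2 * rho u * c ^ 2) := by
        refine div_le_div_of_nonneg_right (mul_le_mul (by linarith) hW hW0 ?_) (by positivity)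
        positivity
    _ = _ := by
        field_simp

/-- The residue in the square of `d`, near the centre and beyond. -/
theorem cross_le (hu : 14247 / 1000 ≤ u) (hs : s ∈ Ioo (0 : ℝ) 1) (hc : 0 < c)
    (hc2 : c ^ 2 = 1 - s ^ 2) :
    13 / 3 * (2 * cb u * c ^ 2 - 2 * u * s) ^ 2 * ((1 + s) * (1 + kappa u * s)) /
      (2 * rho u * c ^ 2) - 3 * u * s ≤ centreLoss u s + midLoss u c s := by
  have hk := kappa_bounds hu
  have hr := (rho_pos hu).1
  have hr' := rho_ge hu
  have hu0 : 0 < u := by linarith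
  have hb := (cb_bounds hu).1
  have hks : 0 ≤ kappa u * s := mul_nonneg hk.1 hs.1.le
  have hks1 : kappa u * s ≤ kappa u := mul_le_of_le_one_right hk.1 hs.2.le
  set W := (1 + s) * (1 + kappa u * s) with hWdef
  have hW0 : 0 ≤ W := mul_nonneg (by linarith [hs.1]) (by linarith)
  have ha : (2 * cb u * c ^ 2 - 2 * u * s) ^ 2 ≤
      4 * cb u ^ 2 * c ^ 4 + 4 * u ^ 2 * s ^ 2 := by
    have : 0 ≤ cb u * c ^ 2 * (u * s) :=
      mul_nonneg (mul_nonneg hb (sq_nonneg c)) (mul_nonneg hu0.le hs.1.le)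
    nlinarith
  have h32 : c ^ 2 * (1 + s) ≤ 32 / 27 := by
    rw [hc2]
    nlinarith [mul_nonneg (sq_nonneg (3 * s - 1)) (show 0 ≤ 3 * s + 5 by linarith [hs.1])]
  have hfirst : 13 / 3 * (4 * cb u ^ 2 * c ^ 2) * W / (2 * rho u) ≤ alpha u := by
    refine div_le_div_of_nonneg_right ?_ (by linarith)
    have := mul_le_mul h32 (show 1 + kappa u * s ≤ 1 + kappa u by linarith) (by linarith)
      (by norm_num)
    have := mul_le_mul_of_nonneg_left this (show 0 ≤ 13 / 3 * (4 * cb u ^ 2) by positivity)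
    rw [hWdef]
    linarith
  have hsecond : 13 / 3 * (4 * u ^ 2 * s ^ 2) * W / (2 * rho u * c ^ 2) ≤
      5 * u * (s ^ 2 * W / c ^ 2) := by
    have h5 : 13 / 3 * (4 * u ^ 2) / (2 * rho u) ≤ 5 * u := by
      rw [div_le_iff₀ (by linarith)]
      nlinarith [mul_le_mul_of_nonneg_left hr' hu0.le]
    refine le_trans (le_of_eq ?_) (mul_le_mul_of_nonneg_right h5 (by positivity))
    field_simp
  have hsum : 13 / 3 * (2 * cb u * c ^ 2 - 2 * u * s) ^ 2 * W / (2 * rho u * c ^ 2) ≤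
      alpha u + 5 * u * (s ^ 2 * W / c ^ 2) := by
    refine le_trans ?_ (add_le_add hfirst hsecond)
    refine le_trans (div_le_div_of_nonneg_right (mul_le_mul_of_nonneg_right
      (mul_le_mul_of_nonneg_left ha (by norm_num)) hW0) (by positivity)) (le_of_eq ?_)
    field_simp
  have hcen : alpha u - u / 2 * s ≤ centreLoss u s := le_max_right _ _
  have hmid : 0 ≤ midLoss u c s :=
    mul_nonneg (le_max_left _ _) (by positivity)
  rcases le_total s (13 / 40) with h | h
  · have hphi : s * W / c ^ 2 ≤ 1 / 2 := by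
      rw [div_le_iff₀ (by positivity), hc2, hWdef]
      have h1 : s * (1 + kappa u * s) ≤ (1 - s) / 2 := by
        nlinarith [mul_le_mul_of_nonneg_right hk.2 (sq_nonneg s), mul_le_mul h h hs.1.le (by norm_num : (0:ℝ) ≤ 13/40)]
      nlinarith [mul_le_mul_of_nonneg_left h1 (show 0 ≤ 1 + s by linarith [hs.1])]
    have h2 := mul_le_mul_of_nonneg_left hphi (show 0 ≤ 5 * u * s by nlinarith [hs.1])
    have e : 5 * u * s * (s * W / c ^ 2) = 5 * u * (s ^ 2 * W / c ^ 2) := by ring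
    linarith
  · have hramp : rampMid s = 1 := by
      rw [rampMid, min_eq_left (by linarith)]
      norm_num
    have hW2 : W ≤ 2 * (1102 / 1000) :=
      mul_le_mul (by linarith [hs.2]) (by linarith) (by linarith) (by norm_num)
    have h2 := mul_le_mul_of_nonneg_left hW2 (show 0 ≤ 5 * u * (s ^ 2 / c ^ 2) by positivity)
    have e : 5 * u * (s ^ 2 / c ^ 2) * W = 5 * u * (s ^ 2 * W / c ^ 2) := by ring
    have hpos : 0 ≤ u * (s ^ 2 / c ^ 2) := by positivity
    have hm : midLoss u c s = 111 / 10 * u * (s ^ 2 / c ^ 2) := by rw [midLoss, hramp]; ring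
    have : 0 ≤ u * s := mul_nonneg hu0.le hs.1.le
    linarith

/-- The coefficient of the gauge and its sum with the linear one are not too small. -/
theorem coef_ge (hu : 14247 / 1000 ≤ u) (hs : s ∈ Ioo (0 : ℝ) 1) (ht : t ∈ Ioo (0 : ℝ) 1)
    (hc : 0 < c) (hc2 : c ^ 2 = 1 - s ^ 2) :
    0 < (1 - s) * (rho u - 2 * cK u * s) ∧
    (1 - s) * (rho u - 2 * cK u * s) ≤ cB u / c - 3 * ((cK u + 2 * cb u * (t - s)) * c ^ 2) ∧
    (1 - s) * (rho u - 2 * cK u * s) ≤
      2 * u * (1 - s * t) - 2 * ((cK u + 2 * cb u * (t - s)) * c ^ 2) := by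
  have hK := cK_bounds hu
  have hb := cb_bounds hu
  have hB := cB_bounds hu
  have he := two_div_bounds hu
  have hcu : c ≤ 1 := by nlinarith [sq_nonneg s]
  have hc21 : c ^ 2 ≤ 1 := by rw [hc2]; nlinarith [sq_nonneg s]
  set d := t - s with hd
  have hd1 : d ≤ 1 - s := by linarith [ht.2]
  have hd0 : -1 ≤ d := by linarith [ht.1, hs.2]
  have hL : 0 ≤ cK u + 2 * cb u * d := by nlinarith [mul_le_mul_of_nonneg_left hd0 hb.1]
  set Qc := (cK u + 2 * cb u * d) * c ^ 2 with hQ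
  have hrs : 0 < rho u - 2 * cK u * s := by
    nlinarith [mul_le_mul_of_nonneg_left hs.2.le (show 0 ≤ cK u by linarith), (rho_pos hu).2]
  have hkle : (1 - s) * (rho u - 2 * cK u * s) ≤ rho u := by
    refine le_trans (mul_le_of_le_one_left hrs.le (by linarith [hs.1])) ?_
    have : 0 ≤ cK u * s := mul_nonneg (by linarith) hs.1.le
    linarith
  refine ⟨mul_pos (by linarith [hs.2]) hrs, ?_, ?_⟩
  · have h1 : cB u ≤ cB u / c := le_div_self (by linarith) hc hcu
    have h2 : Qc ≤ cK u + 2 * cb u := by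
      refine le_trans (mul_le_of_le_one_right hL hc21) ?_
      nlinarith [mul_le_mul_of_nonneg_left (show d ≤ 1 by linarith [hs.1]) hb.1]
    have e : cB u - 3 * cK u - 6 * cb u = rho u := by simp only [cB, rho]; ring
    linarith
  · have hU : 1 - s ≤ 1 - s * t := by nlinarith [mul_le_of_le_one_right hs.1.le ht.2.le]
    have h1 : c ^ 2 ≤ (1 + s) * (1 - s * t) := by
      rw [hc2]
      nlinarith [mul_nonneg (mul_nonneg (show (0:ℝ) ≤ 1 + s by linarith [hs.1]) hs.1.le)
        (show (0:ℝ) ≤ 1 - t by linarith [ht.2])]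
    have h2 : Qc ≤ (cK u * (1 + s) + 2 * cb u) * (1 - s * t) := by
      have ha := mul_le_mul_of_nonneg_left h1 (show 0 ≤ cK u by linarith)
      rcases le_total d 0 with h | h
      · have : cb u * d * c ^ 2 ≤ 0 :=
          mul_nonpos_of_nonpos_of_nonneg (mul_nonpos_of_nonneg_of_nonpos hb.1 h) (sq_nonneg c)
        have : 0 ≤ cb u * (1 - s * t) := mul_nonneg hb.1 (by linarith [hs.2])
        rw [hQ]
        linarith
      · have hds : d * (1 + s) ≤ 1 :=
          le_trans (mul_le_mul_of_nonneg_right hd1 (by linarith [hs.1])) (by nlinarith [sq_nonneg s])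
        have hb1 := mul_le_mul_of_nonneg_left
          (le_trans (mul_le_mul_of_nonneg_left h1 h)
            (le_trans (le_of_eq (mul_assoc d (1 + s) (1 - s * t)).symm)
              (mul_le_of_le_one_left (by linarith [hs.2]) hds))) hb.1
        rw [hQ]
        linarith
    have e : 2 * u - 2 * (cK u * (1 + s) + 2 * cb u) =
        rho u - 2 * cK u * s + 2 * cb u + 2 / u := by simp only [rho]; ring
    have h3 : (1 - s) * (rho u - 2 * cK u * s) ≤
        (1 - s * t) * (2 * u - 2 * (cK u * (1 + s) + 2 * cb u)) :=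
      mul_le_mul hU (by rw [e]; linarith) hrs.le (by linarith [hs.2])
    linarith

/-- The reciprocal of the coefficient. -/
theorem rho_mul_le (hu : 14247 / 1000 ≤ u) (hs : s ∈ Ioo (0 : ℝ) 1) (hc2 : c ^ 2 = 1 - s ^ 2) :
    rho u * c ^ 2 ≤
      (1 - s) * (rho u - 2 * cK u * s) * ((1 + s) * (1 + kappa u * s)) := by
  have hK := cK_bounds hu
  have hk := kappa_bounds hu
  have h1 : rho u ≤ (rho u - 2 * cK u * s) * (1 + kappa u * s) := by
    have e : kappa u * (rho u - 2 * cK u) = 2 * cK u := div_mul_cancel₀ _ (rho_pos hu).2.ne'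
    have := mul_nonneg (mul_nonneg (mul_nonneg hk.1 (show 0 ≤ cK u by linarith)) hs.1.le)
      (show 0 ≤ 1 - s by linarith [hs.2])
    linear_combination 2 * this - s * e
  calc rho u * c ^ 2 ≤ (rho u - 2 * cK u * s) * (1 + kappa u * s) * c ^ 2 :=
        mul_le_mul_of_nonneg_right h1 (sq_nonneg c)
    _ = _ := by rw [hc2]; ring

/-- The square of the linear term, split. -/
theorem loss_split {k R W E a d : ℝ} (hk : 0 < k) (hR : 0 < R * c ^ 2) (h : R * c ^ 2 ≤ k * W) :
    (E + a * d) ^ 2 / (2 * k) ≤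
      13 / 10 * E ^ 2 * W / (2 * R * c ^ 2) + 13 / 3 * a ^ 2 * W / (2 * R * c ^ 2) * d ^ 2 := by
  have hN : (E + a * d) ^ 2 ≤ 13 / 10 * E ^ 2 + 13 / 3 * a ^ 2 * d ^ 2 := by
    nlinarith [sq_nonneg (3 * E - 10 * (a * d))]
  refine le_trans ((div_le_div_of_nonneg_right hN (by linarith)).trans ?_)
    (le_of_eq (show (13 / 10 * E ^ 2 + 13 / 3 * a ^ 2 * d ^ 2) * W / (2 * R * c ^ 2) =
      13 / 10 * E ^ 2 * W / (2 * R * c ^ 2) + 13 / 3 * a ^ 2 * W / (2 * R * c ^ 2) * d ^ 2 by ring))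
  rw [div_le_div_iff₀ (by linarith) (by linarith)]
  have := mul_le_mul_of_nonneg_left h
    (show 0 ≤ 13 / 10 * E ^ 2 + 13 / 3 * a ^ 2 * d ^ 2 by positivity)
  linarith

/-- The gauge of the reciprocal speed, up to two. -/
theorem recip_gauge_le (hr : 1 / 2 ≤ r) :
    1 / r - 1 + Real.log r ≤ 2 * (r - 1 - Real.log r) := by
  have hr0 : 0 < r := by linarith
  have h := gauge_le_of_end (K := 2) (M := 2) (q := 1 / r) (by norm_num) (by positivity)
    (by rw [div_le_iff₀ hr0]; linarith) (by norm_num)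
    (by have := Real.log_two_gt_d9; norm_num at this ⊢; linarith)
  rw [one_div_one_div, one_div, Real.log_inv] at h
  rw [one_div]
  linarith

/-- The gauge of the reciprocal and the linear term, in letters. -/
theorem linear_ge {P A Q k lam : ℝ} (hr : 1 / 2 ≤ r) (hQ : 0 ≤ Q) (hk : 0 < k)
    (hmu : k ≤ A - 3 * Q) (hlam : k ≤ P - 2 * Q) (e : lam = P - A + Q) :
    -(lam ^ 2 / (2 * k)) ≤ P * (r - 1) + A * -Real.log r - Q * (1 / r - 1) := by
  subst e
  have h := gauge_linear_min_le (mu := A - 3 * Q) (lam := P - A + Q) (r := r) hk hmu (by linarith)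
    (by linarith)
  have := mul_le_mul_of_nonneg_left (recip_gauge_le hr) hQ
  linarith

/-- At speeds from one half on, the part of the integrand is above minus the losses. -/
theorem near_ge (hu : 14247 / 1000 ≤ u) (hs : s ∈ Ioo (0 : ℝ) 1) (ht : t ∈ Ioo (0 : ℝ) 1)
    (hc : 0 < c) (hc2 : c ^ 2 = 1 - s ^ 2) (hr : 1 / 2 ≤ r) :
    -(mainLoss u c s + centreLoss u s + midLoss u c s) ≤ core u c s t r := by
  obtain ⟨hk0, hmu, hlam⟩ := coef_ge hu hs ht hc hc2
  have hb := cb_bounds hu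
  have hK := cK_bounds hu
  have hd0 : -1 ≤ t - s := by linarith [ht.1, hs.2]
  have hd1 : t - s ≤ 1 := by linarith [ht.2, hs.1]
  have hQ : 0 ≤ (cK u + 2 * cb u * (t - s)) * c ^ 2 := by
    refine mul_nonneg ?_ (sq_nonneg c)
    linarith [mul_le_mul_of_nonneg_left hd0 hb.1]
  have e : ((2 * u + cK u) * c ^ 2 - cB u / c) + (2 * cb u * c ^ 2 - 2 * u * s) * (t - s) =
      2 * u * (1 - s * t) - cB u / c + (cK u + 2 * cb u * (t - s)) * c ^ 2 := by
    rw [hc2]
    ring
  have hmain := linear_ge hr hQ hk0 hmu hlam e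
  have hloss := loss_split (c := c) (E := (2 * u + cK u) * c ^ 2 - cB u / c)
    (a := 2 * cb u * c ^ 2 - 2 * u * s) (d := t - s) hk0
    (mul_pos (rho_pos hu).1 (pow_pos hc 2)) (rho_mul_le hu hs hc2)
  have h1 := main_le hu hs hc hc2
  have h2 := mul_le_mul_of_nonneg_right (cross_le hu hs hc hc2) (sq_nonneg (t - s))
  have h3 : (centreLoss u s + midLoss u c s) * (t - s) ^ 2 ≤ centreLoss u s + midLoss u c s :=
    mul_le_of_le_one_right (add_nonneg (le_max_left _ _)
      (mul_nonneg (le_max_left _ _) (div_nonneg (mul_nonneg (by linarith) (sq_nonneg s))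
        (sq_nonneg c)))) (abs_le_one_iff_mul_self_le_one.1 (abs_le.2 ⟨hd0, hd1⟩) |> (sq (t - s)).trans_le)
  simp only [core]
  linarith

end Vale.Agent.P237.Petty.Cor.Huge
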