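import Vale.Agent.P237.Petty.Cor.Mean
import Vale.Agent.P237.Petty.Cor.Huge.Near
import Vale.Agent.P237.Petty.Cor.Huge.Far
import Vale.Agent.P237.Petty.Cor.Huge.Mean

/-!
# P237: the slope-free field above logarithm `14 / √(p + 3)`, from order two
hundred on

With `nu = √(p + 3)`, `kap = 1`, the test `s`, the weight one and the potential
`-(1 - s ^ 2) (cK d + cb d ^ 2)` the integrand per unit of mass is above the common part minus the
losses, a function of `s` of nonnegative mean. So the large regime holds in every such order.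
-/

namespace Vale.Agent.P237.Petty.Cor.Huge

open MeasureTheory Set intervalIntegral
open Ident (half)

variable {p : ℕ} {u : ℝ}

/-- The lower bound in the abscissa of the circle. -/
noncomputable def psi (p : ℕ) (u ell s : ℝ) : ℝ :=
  (u + 1) * (1 - ((p : ℝ) + 4) * s ^ 2) + ell / ((p : ℝ) + 2) -
    (mainLoss u (arc s) s + centreLoss u s + midLoss u (arc s) s + farLoss u s)

theorem root_facts (hp : 200 ≤ p) :
    14247 / 1000 ≤ √((p : ℝ) + 3) ∧ √((p : ℝ) + 3) ^ 2 = (p : ℝ) + 3 := by
  have hp' : (200 : ℝ) ≤ p := by exact_mod_cast hp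
  exact ⟨Real.le_sqrt_of_sq_le (by linarith), Real.sq_sqrt (by positivity)⟩

theorem mainLoss_nonneg (hu : 14247 / 1000 ≤ u) (c s : ℝ) : 0 ≤ mainLoss u c s := by
  have hk := kappa_bounds hu
  have := (rho_pos hu).1
  have hA : 0 ≤ wA u := by linarith [(wA_bounds hu).1]
  have hC : 0 ≤ wC u := by linarith [(wC_bounds hu).1]
  unfold mainLoss
  refine mul_nonneg (by positivity) (add_nonneg (by positivity) ?_)
  rw [show c ^ 6 = (c ^ 3) ^ 2 by ring]
  positivity

/-- The potential. -/
theorem pot_huge (u : ℝ) :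
    Pot (fun s t => (1 - s ^ 2) * -(cK u * (t - s) + cb u * (t - s) ^ 2))
      (fun s t => -2 * s * -(cK u * (t - s) + cb u * (t - s) ^ 2) +
        (1 - s ^ 2) * (cK u + 2 * cb u * (t - s)))
      fun s t => (1 - s ^ 2) * -(cK u + 2 * cb u * (t - s)) :=
  Pot.arcSq ((((Pot.height.sub Pot.abscissa).smul (-cK u)).add
    (((Pot.height.sub Pot.abscissa).pow 2).smul (-cb u))).congr (fun s t => by ring)
      (fun s _ t _ => by push_cast; ring) fun s _ t _ => by push_cast; ring)

/-- The integrand per unit of mass is above `psi`. -/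
theorem psi_le_perMass (hu : 14247 / 1000 ≤ u) (hM : u ^ 2 = (p : ℝ) + 3) {ell : ℝ}
    {top s t a r q : ℝ} (h : FlatState p top s t a r q) :
    psi p u ell s ≤ perMass p (cB u * ((p : ℝ) + 1) / Ident.b0 p) u 1 ell
      (fun s t => s + 0 * (s - t)) (fun _ _ => 1 + 0) (fun _ _ => -0) (fun _ => 1)
      (fun s t => (1 - s ^ 2) * -(cK u * (t - s) + cb u * (t - s) ^ 2))
      (fun s t => -2 * s * -(cK u * (t - s) + cb u * (t - s) ^ 2) +
        (1 - s ^ 2) * (cK u + 2 * cb u * (t - s)))
      (fun s t => (1 - s ^ 2) * -(cK u + 2 * cb u * (t - s))) s t a r := by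
  have hu0 : 0 < u := by linarith
  have hs := h.state.s_mem
  have ht := h.state.t_mem
  have hr := h.state.rate_pos
  have hc := h.state.arc_pos'
  have hb := Ident.b0_pos p
  have hn : (0 : ℝ) < (p : ℝ) + 2 := by positivity
  have hc2 : arc s ^ 2 = 1 - s ^ 2 := Real.sq_sqrt (by nlinarith [hs.1, hs.2])
  have hA : cB u / arc s * -Real.log r ≤
      cB u * ((p : ℝ) + 1) / Ident.b0 p * Ident.b0 p * (1 / a - 1 / arc s) := by
    refine le_trans (le_of_eq ?_) (h.shadow_ge (div_nonneg (mul_nonneg
      (by linarith [(cB_bounds hu).1]) (by positivity)) hb.le))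
    field_simp
  have hK : u ^ 2 * cK u = u ^ 2 + (1 + 2 * u) := by
    rw [cK]
    field_simp
  have hb' : u ^ 2 * cb u = 3 * u := by
    rw [cb]
    field_simp
  have e : u * fisherTest p (fun s t => s + 0 * (s - t)) (fun _ _ => 1 + 0) (fun _ _ => -0) s t r -
      1 * (((p : ℝ) + 4) * (s * t) - 1) +
      nullPart p (fun s t => (1 - s ^ 2) * -(cK u * (t - s) + cb u * (t - s) ^ 2))
        (fun s t => -2 * s * -(cK u * (t - s) + cb u * (t - s) ^ 2) +
          (1 - s ^ 2) * (cK u + 2 * cb u * (t - s)))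
        (fun s t => (1 - s ^ 2) * -(cK u + 2 * cb u * (t - s))) s t r =
      2 * u * (1 - s * t) * (r - 1) -
        (cK u + 2 * cb u * (t - s)) * arc s ^ 2 * (1 / r - 1) + 3 * u * s * (t - s) ^ 2 +
        (u + 1) * (1 - ((p : ℝ) + 4) * s ^ 2) := by
    rw [nullPart_arcSq (Qs := fun s t => cK u + 2 * cb u * (t - s))
      (Qt := fun s t => -(cK u + 2 * cb u * (t - s))) hs, hc2, fisherTest,
      show (p : ℝ) + 4 = u ^ 2 + 1 by linarith, show (p : ℝ) + 3 = u ^ 2 by linarith,
      show (p : ℝ) + 2 = u ^ 2 - 1 by linarith]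
    linear_combination (s * (t - s)) * hK + (s * (t - s) ^ 2) * hb'
  have hcore : -(mainLoss u (arc s) s + centreLoss u s + midLoss u (arc s) s + farLoss u s) ≤
      core u (arc s) s t r := by
    have n1 := mainLoss_nonneg hu (arc s) s
    have n2 : 0 ≤ centreLoss u s := le_max_left _ _
    have n3 : 0 ≤ midLoss u (arc s) s := mul_nonneg (le_max_left _ _) (by positivity)
    have n4 : 0 ≤ farLoss u s :=
      mul_nonneg (le_max_left _ _) (mul_nonneg (by positivity) hs.1.le)
    rcases le_total (1 / 2) r with h2 | h2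
    · linarith [near_ge hu hs ht hc hc2 h2]
    · have hd : millsDen p s = u ^ 2 * s + u := by
        rw [millsDen, ← hM, Real.sqrt_sq hu0.le]
      have h1 := h.inv_rate_le
      rw [hd, ← hc2, le_div_iff₀ (pow_pos hc 2)] at h1
      linarith [far_ge hu hs ht hc hc2 hr h2 h1]
  rw [perMass_eq, psi]
  simp only [core] at hcore
  linarith

/-- The losses against the circle are continuous and their integral is below the mass over
`p + 2`. -/
theorem loss_mean (hu : 14247 / 1000 ≤ u) {i : ℕ} (hi : 195 ≤ i) (hM : u ^ 2 = (i : ℝ) + 8) :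
    Continuous (fun s => arc s ^ (i + 6) *
        (mainLoss u (arc s) s + centreLoss u s + midLoss u (arc s) s + farLoss u s)) ∧
      u * ∫ s in (0 : ℝ)..1, arc s ^ (i + 6) *
          (mainLoss u (arc s) s + centreLoss u s + midLoss u (arc s) s + farLoss u s) ≤
        14 * (half (i + 6) / ((i : ℝ) + 7)) := by
  have hu0 : 0 < u := by linarith
  have hi' : (195 : ℝ) ≤ i := by exact_mod_cast hi
  have ha := continuous_arc
  set f1 := fun s => arc s ^ (i + 6) * mainLoss u (arc s) s with hf1
  set f2 := fun s => arc s ^ (i + 6) * centreLoss u s with hf2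
  set f3 := fun s => rampMid s * (111 / 10 * u * (arc s ^ (i + 4) * s ^ 2)) with hf3
  set f4 := fun s => arc s ^ (i + 6) * farLoss u s with hf4
  have e3 : ∀ s, arc s ^ (i + 6) * midLoss u (arc s) s = f3 s := fun s => by
    have := pow_mul_div_pow (arc s) (111 / 10 * u * s ^ 2) (show i + 4 ≠ 0 by omega) 2
    rw [show i + 4 + 2 = i + 6 from rfl] at this
    simp only [hf3, midLoss]
    linear_combination rampMid s * this
  have c1 : Continuous f1 := by
    simp only [hf1, main_pointwise (show i ≠ 0 by omega)]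
    fun_prop
  have c2 : Continuous f2 := (ha.pow _).mul (continuous_centreLoss u)
  have c3 : Continuous f3 := continuous_rampMid.mul (by fun_prop)
  have c4 : Continuous f4 :=
    (ha.pow _).mul ((continuous_rampFar u).mul (continuous_const.mul continuous_id))
  have e : (fun s => arc s ^ (i + 6) *
      (mainLoss u (arc s) s + centreLoss u s + midLoss u (arc s) s + farLoss u s)) =
      fun s => f1 s + f2 s + f3 s + f4 s := funext fun s => by
    simp only [mul_add, e3, hf1, hf2, hf4]
  refine ⟨by rw [e]; exact ((c1.add c2).add c3).add c4, ?_⟩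
  rw [intervalIntegral.integral_congr fun s _ => congrFun e s,
    intervalIntegral.integral_add (f := fun s => f1 s + f2 s + f3 s)
      (((c1.add c2).add c3).intervalIntegrable _ _) (c4.intervalIntegrable _ _),
    intervalIntegral.integral_add (f := fun s => f1 s + f2 s)
      ((c1.add c2).intervalIntegrable _ _) (c3.intervalIntegrable _ _),
    intervalIntegral.integral_add (c1.intervalIntegrable _ _) (c2.intervalIntegrable _ _)]
  have hh : 1 / u ≤ half (i + 6) := by
    have := inv_sqrt_le_half (i + 5)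
    rwa [show ((i + 5 : ℕ) : ℝ) + 3 = u ^ 2 by push_cast; linarith, Real.sqrt_sq hu0.le] at this
  have h0 : 0 < half (i + 6) := Ident.half_pos _
  have b1 := integral_main_le hu hi hM
  have b2 := integral_centre_le hu (i + 6)
  have b3 := integral_mid_le hu0.le (show 2 ≤ i + 5 by omega)
  have b4 := integral_far_le hu (i + 5)
  simp only [show i + 5 - 1 = i + 4 by omega, show i + 5 + 1 = i + 6 from rfl] at b3 b4
  push_cast at b3 b4
  rw [show (i : ℝ) + 5 + 3 = u ^ 2 by linarith] at b4
  rw [show (i : ℝ) + 5 + 1 = u ^ 2 - 2 by linarith] at b3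
  rw [← hM] at b1
  have k2 : u * (u ^ 2 * (alpha u ^ 2 / u)) ≤ 119 / 100 * half (i + 6) := by
    obtain ⟨a0, a1⟩ := alpha_bounds hu
    have h4 : (14247 / 1000 : ℝ) ^ 3 ≤ u ^ 3 := pow_le_pow_left₀ (by norm_num) hu 3
    calc u * (u ^ 2 * (alpha u ^ 2 / u)) = u ^ 2 * alpha u ^ 2 := by field_simp
      _ ≤ u ^ 2 * (586 / 10 / u ^ 3) ^ 2 :=
        mul_le_mul_of_nonneg_left (pow_le_pow_left₀ a0 a1 2) (sq_nonneg u)
      _ = (586 / 10) ^ 2 / u ^ 3 * (1 / u) := by field_simp
      _ ≤ (586 / 10) ^ 2 / (14247 / 1000) ^ 3 * half (i + 6) :=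
        mul_le_mul (div_le_div_of_nonneg_left (by positivity) (by norm_num) h4) hh
          (by positivity) (by positivity)
      _ ≤ _ := by linarith
  have k3 := mid_num hu (show 203 ≤ u ^ 2 by linarith) hh
    (show 0 ≤ arc (8 / 25) ^ (i + 6) from pow_nonneg (Real.sqrt_nonneg _) _)
    (show arc (8 / 25) ^ (i + 6) ≤ Real.exp (-((u ^ 2 - 2) * (5396 / 100000))) from ?_)
  have k4 := far_num hu hh
  · have hn : 0 < (i : ℝ) + 7 := by linarith
    rw [mul_div_assoc', le_div_iff₀ hn]
    have hle : (i : ℝ) + 7 ≤ u ^ 2 := by linarith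
    have n0 : 0 ≤ (∫ s in (0 : ℝ)..1, f1 s) + (∫ s in (0 : ℝ)..1, f2 s) + (∫ s in (0 : ℝ)..1, f3 s) +
        ∫ s in (0 : ℝ)..1, f4 s := by
      have hp : ∀ s ∈ Icc (0 : ℝ) 1, 0 ≤ arc s ^ (i + 6) := fun s _ =>
        pow_nonneg (Real.sqrt_nonneg _) _
      refine add_nonneg (add_nonneg (add_nonneg ?_ ?_) ?_) ?_ <;>
        refine intervalIntegral.integral_nonneg zero_le_one fun s hs => ?_
      · exact mul_nonneg (hp s hs) (mainLoss_nonneg hu _ _)
      · exact mul_nonneg (hp s hs) (le_max_left _ _)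
      · rw [← e3]
        exact mul_nonneg (hp s hs) (mul_nonneg (le_max_left _ _) (by positivity))
      · exact mul_nonneg (hp s hs)
          (mul_nonneg (le_max_left _ _) (mul_nonneg (by positivity) hs.1))
    have := mul_le_mul_of_nonneg_left hle (mul_nonneg hu0.le n0)
    have := mul_le_mul_of_nonneg_left (mul_le_mul_of_nonneg_left b2 (sq_nonneg u)) hu0.le
    have := mul_le_mul_of_nonneg_left (mul_le_mul_of_nonneg_left b3 (sq_nonneg u)) hu0.le
    have := mul_le_mul_of_nonneg_left (mul_le_mul_of_nonneg_left b4 (sq_nonneg u)) hu0.le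
    linarith
  · have h1 : arc (8 / 25) ≤ Real.exp (-(5396 / 100000)) := by
      refine Real.sqrt_le_iff.2 ⟨(Real.exp_pos _).le, ?_⟩
      rw [← Real.exp_nat_mul, ← Real.log_le_iff_le_exp (by norm_num)]
      have h := Real.le_log_one_add_of_nonneg (show (0 : ℝ) ≤ 64 / 561 by norm_num)
      rw [show (1 : ℝ) - (8 / 25) ^ 2 = (1 + 64 / 561)⁻¹ by norm_num, Real.log_inv]
      norm_num at h ⊢
      linarith
    refine (pow_le_pow_left₀ (Real.sqrt_nonneg _) h1 _).trans (le_of_eq ?_)
    rw [← Real.exp_nat_mul]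
    push_cast
    rw [show (i : ℝ) + 6 = u ^ 2 - 2 by linarith]
    ring_nf

/-- The large regime in every order from two hundred on, above logarithm `14 / √(p + 3)`. -/
theorem pointwiseR_large (hp : 200 ≤ p) : PointwiseR p (14 / √((p : ℝ) + 3)) := fun ell hl => by
  obtain ⟨i, rfl⟩ : ∃ i, p = i + 5 := ⟨p - 5, by omega⟩
  obtain ⟨hu, hM⟩ := root_facts hp
  set u := √(((i + 5 : ℕ) : ℝ) + 3)
  have hgam : 0 < cB u * (((i + 5 : ℕ) : ℝ) + 1) / Ident.b0 (i + 5) :=
    div_pos (mul_pos (by linarith [(cB_bounds hu).1]) (by positivity)) (Ident.b0_pos _)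
  refine ⟨_, u, 1, ell, ell, hgam, by linarith, one_pos, le_rfl, le_rfl,
    flatField_of_point_mean (ω := fun _ => 1) (ψ := psi (i + 5) u ell) (axTest_affine 0)
      continuous_const (by simp only [mul_one]; rfl) (pot_huge u) (by simp) ?_ ?_
      fun s t a r q h => psi_le_perMass hu hM h⟩
  all_goals
    obtain ⟨hc, hI⟩ := loss_mean hu (i := i) (by omega) (by push_cast at hM; linarith)
  · refine Continuous.continuousOn ?_
    simp only [psi, mul_sub]
    exact ((continuous_arc.pow _).mul (by fun_prop)).sub hc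
  · have e : ∀ s : ℝ, arc s ^ (i + 5 + 1) * psi (i + 5) u ell s =
        ((u + 1 + ell / (((i + 5 : ℕ) : ℝ) + 2)) * arc s ^ (i + 6) -
          (u + 1) * (((i + 5 : ℕ) : ℝ) + 4) * (arc s ^ (i + 6) * s ^ 2)) -
        arc s ^ (i + 6) *
          (mainLoss u (arc s) s + centreLoss u s + midLoss u (arc s) s + farLoss u s) := fun s => by
      simp only [psi]
      ring
    have i1 : IntervalIntegrable (fun s => arc s ^ (i + 6)) volume 0 1 :=
      (continuous_arc.pow _).intervalIntegrable _ _
    have i2 : IntervalIntegrable (fun s => arc s ^ (i + 6) * s ^ 2) volume 0 1 :=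
      ((continuous_arc.pow _).mul (continuous_pow 2)).intervalIntegrable _ _
    have em := integral_arc_pow_mul_sq (i + 5)
    have eh : ∫ s in (0 : ℝ)..1, arc s ^ (i + 6) = half (i + 6) := rfl
    rw [intervalIntegral.integral_congr fun s _ => e s,
      intervalIntegral.integral_sub ((i1.const_mul _).sub (i2.const_mul _))
        (hc.intervalIntegrable _ _),
      intervalIntegral.integral_sub (i1.const_mul _) (i2.const_mul _),
      intervalIntegral.integral_const_mul, intervalIntegral.integral_const_mul, mul_assoc (u + 1),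
      em, eh]
    push_cast
    rw [show (i : ℝ) + 5 + 2 = i + 7 by ring]
    have hu0 : 0 < u := by linarith
    have hl' : 14 ≤ ell * u := (div_le_iff₀ hu0).1 hl
    have hH : 0 ≤ half (i + 6) / ((i : ℝ) + 7) := div_nonneg (Ident.half_pos _).le (by positivity)
    have h2 := le_of_mul_le_mul_left ((mul_comm ell u ▸ (hI.trans
      (mul_le_mul_of_nonneg_right hl' hH))).trans_eq (mul_assoc u ell _)) hu0
    have e' : ell * (half (i + 6) / ((i : ℝ) + 7)) = ell / ((i : ℝ) + 7) * half (i + 6) := by ring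
    linarith

/-- The large regime above logarithm one. -/
theorem pointwiseR_huge (hp : 200 ≤ p) : PointwiseR p 1 := fun ell hl => by
  refine pointwiseR_large hp ell (le_trans ?_ hl)
  obtain ⟨hu, -⟩ := root_facts hp
  rw [div_le_one (by linarith)]
  linarith

end Vale.Agent.P237.Petty.Cor.Huge
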