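import Vale.Agent.P237.Petty.Cor.Huge.Params
import Vale.Agent.P237.Petty.Lift.Kernel

/-!
# P237: the integrals of the losses against the circle

Even moments of the powers of the half circle, and integrals of functions that vanish up to a cut.
-/

namespace Vale.Agent.P237.Petty.Cor.Huge

open MeasureTheory Set intervalIntegral
open Ident (half)

variable {u : ℝ}

/-- The even moments of a power of the half circle. -/
noncomputable def moment (k j : ℕ) : ℝ := ∫ s in (0 : ℝ)..1, arc s ^ k * s ^ (2 * j)

theorem moment_zero (k : ℕ) : moment k 0 = half k := by simp [moment, half, arc]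

theorem integrable_moment (k j : ℕ) (a b : ℝ) :
    IntervalIntegrable (fun s => arc s ^ k * s ^ (2 * j)) volume a b :=
  ((continuous_arc.pow k).mul (continuous_pow _)).intervalIntegrable _ _

theorem moment_step (k j : ℕ) :
    ((k : ℝ) + 2 * (j : ℝ) + 3) * moment k (j + 1) = (2 * (j : ℝ) + 1) * moment k j := by
  have h := intervalIntegral.integral_eq_sub_of_hasDerivAt_of_le zero_le_one
    (f := fun s => arc s ^ (k + 2) * s ^ (2 * j + 1))
    (f' := fun s => (2 * (j : ℝ) + 1) * (arc s ^ k * s ^ (2 * j)) -
      ((k : ℝ) + 2 * (j : ℝ) + 3) * (arc s ^ k * s ^ (2 * (j + 1))))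
    ((continuous_arc.pow _).mul (continuous_pow _)).continuousOn (fun s hs => ?_)
    (((integrable_moment k j _ _).const_mul _).sub ((integrable_moment k (j + 1) _ _).const_mul _))
  · rw [intervalIntegral.integral_sub ((integrable_moment k j _ _).const_mul _)
      ((integrable_moment k (j + 1) _ _).const_mul _), intervalIntegral.integral_const_mul,
      intervalIntegral.integral_const_mul] at h
    have h1 : arc 1 = 0 := by simp [arc]
    simp only [h1, zero_pow (by omega : k + 2 ≠ 0), zero_pow (by omega : 2 * j + 1 ≠ 0), zero_mul,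
      mul_zero, sub_zero] at h
    simp only [moment]
    linarith
  · have h2 : arc s ^ 2 = 1 - s ^ 2 := Real.sq_sqrt (by nlinarith [hs.1, hs.2])
    have hd := hasDerivAt_half_circle k (t := s) ⟨by linarith [hs.1], hs.2⟩
    refine ((hd.congr_of_eventuallyEq (Filter.Eventually.of_forall fun x => by simp [arc])).mul
      (hasDerivAt_pow (2 * j + 1) s)).congr_deriv ?_
    simp only [Nat.add_sub_cancel, show √(1 - s ^ 2) = arc s from rfl]
    push_cast
    rw [pow_add (arc s) k 2, h2]
    ring

/-- An integral of a function that vanishes up to a cut. -/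
theorem integral_le_beyond {f g : ℝ → ℝ} {x : ℝ} (hx : x ∈ Icc (0 : ℝ) 1) (hf : Continuous f)
    (hg : Continuous g) (h0 : ∀ s ∈ Icc 0 x, f s = 0) (hle : ∀ s ∈ Icc x 1, f s ≤ g s) :
    ∫ s in (0 : ℝ)..1, f s ≤ ∫ s in x..(1 : ℝ), g s := by
  rw [← integral_add_adjacent_intervals (hf.intervalIntegrable 0 x) (hf.intervalIntegrable x 1),
    intervalIntegral.integral_congr (g := fun _ => (0 : ℝ)) (by rw [uIcc_of_le hx.1]; exact h0),
    intervalIntegral.integral_zero, zero_add]
  exact intervalIntegral.integral_mono_on hx.2 (hf.intervalIntegrable _ _) (hg.intervalIntegrable _ _) hle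

theorem continuous_centreLoss (u : ℝ) : Continuous (centreLoss u) := by unfold centreLoss; fun_prop

theorem continuous_rampMid : Continuous rampMid := by unfold rampMid; fun_prop

theorem continuous_rampFar (u : ℝ) : Continuous (rampFar u) := by unfold rampFar; fun_prop

theorem rampMid_le_one (s : ℝ) : rampMid s ≤ 1 := max_le zero_le_one (min_le_left _ _)

theorem rampFar_le_one (u s : ℝ) : rampFar u s ≤ 1 := max_le zero_le_one (min_le_left _ _)

theorem arc_pow_le_one {s : ℝ} (hs : 0 ≤ s) (k : ℕ) : arc s ^ k ≤ 1 :=
  pow_le_one₀ (Real.sqrt_nonneg _) (Real.sqrt_le_one.2 (by nlinarith))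

/-- The loss near the centre. -/
theorem integral_centre_le (hu : 14247 / 1000 ≤ u) (k : ℕ) :
    ∫ s in (0 : ℝ)..1, arc s ^ k * centreLoss u s ≤ alpha u ^ 2 / u := by
  have hu0 : 0 < u := by linarith
  obtain ⟨ha, ha1⟩ := alpha_bounds hu
  set z := 2 * alpha u / u with hz
  have hz0 : 0 ≤ z := by positivity
  have hz1 : z ≤ 1 := by
    rw [hz, div_le_one hu0]
    have : 586 / 10 / u ^ 3 ≤ 586 / 10 / 1000 :=
      div_le_div_of_nonneg_left (by norm_num) (by norm_num)
        (le_trans (by norm_num) (pow_le_pow_left₀ (by norm_num) (show (10 : ℝ) ≤ u by linarith) 3))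
    norm_num at this
    linarith
  have hc := continuous_centreLoss u
  calc ∫ s in (0 : ℝ)..1, arc s ^ k * centreLoss u s
      ≤ ∫ s in (0 : ℝ)..1, centreLoss u s :=
        intervalIntegral.integral_mono_on zero_le_one
          (((continuous_arc.pow k).mul hc).intervalIntegrable _ _) (hc.intervalIntegrable _ _)
          fun s hs => mul_le_of_le_one_left (le_max_left _ _) (arc_pow_le_one hs.1 k)
    _ = (∫ s in (0 : ℝ)..z, centreLoss u s) + ∫ s in z..(1 : ℝ), centreLoss u s :=
        (integral_add_adjacent_intervals (hc.intervalIntegrable _ _)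
          (hc.intervalIntegrable _ _)).symm
    _ = alpha u ^ 2 / u := by
        rw [intervalIntegral.integral_congr (a := z) (g := fun _ => (0 : ℝ)),
          intervalIntegral.integral_zero, add_zero,
          intervalIntegral.integral_congr (a := 0) (g := fun s => alpha u - u / 2 * s),
          intervalIntegral.integral_sub intervalIntegrable_const
            ((intervalIntegral.intervalIntegrable_id).const_mul _),
          intervalIntegral.integral_const, intervalIntegral.integral_const_mul, integral_id]
        · simp only [smul_eq_mul, hz]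
          field_simp
          ring
        · intro s hs
          rw [uIcc_of_le hz0] at hs
          have := mul_le_mul_of_nonneg_left hs.2 (show 0 ≤ u / 2 by positivity)
          have e : u / 2 * z = alpha u := by rw [hz]; field_simp
          exact max_eq_right (by linarith)
        · intro s hs
          rw [uIcc_of_le hz1] at hs
          have := mul_le_mul_of_nonneg_left hs.1 (show 0 ≤ u / 2 by positivity)
          have e : u / 2 * z = alpha u := by rw [hz]; field_simp
          exact max_eq_left (by linarith)

/-- The loss beyond `8 / 25`. -/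
theorem integral_mid_le (hu : 0 ≤ u) {p : ℕ} (hp : 2 ≤ p) :
    ∫ s in (0 : ℝ)..1, rampMid s * (111 / 10 * u * (arc s ^ (p - 1) * s ^ 2)) ≤
      111 / 10 * u * (arc (8 / 25) ^ (p + 1) / ((p : ℝ) + 1)) := by
  obtain ⟨i, rfl⟩ : ∃ i, p = i + 2 := ⟨p - 2, by omega⟩
  have hm := integral_high_moment (p := i) (s := 8 / 25) (by norm_num)
  simp only [show i + 2 - 1 = i + 1 by omega]
  have hc : Continuous fun s => arc s ^ (i + 1) := continuous_arc.pow _
  refine (integral_le_beyond (x := 8 / 25) (by norm_num)
    (continuous_rampMid.mul (continuous_const.mul (hc.mul (continuous_pow 2))))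
    (g := fun s => 111 / 10 * u * (s * arc s ^ (i + 1)))
    (continuous_const.mul (continuous_id.mul hc)) (fun s hs => ?_) fun s hs => ?_).trans (le_of_eq ?_)
  · have : rampMid s = 0 := max_eq_left ((min_le_right _ _).trans (by linarith [hs.2]))
    simp [this]
  · have hs0 : 0 ≤ s := le_trans (by norm_num) hs.1
    have hn : 0 ≤ 111 / 10 * u * (arc s ^ (i + 1) * s ^ 2) :=
      mul_nonneg (by positivity) (mul_nonneg (pow_nonneg (Real.sqrt_nonneg _) _) (sq_nonneg _))
    refine (mul_le_of_le_one_left hn (rampMid_le_one s)).trans ?_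
    refine mul_le_mul_of_nonneg_left ?_ (by positivity)
    rw [mul_comm]
    exact mul_le_mul_of_nonneg_right (by nlinarith [hs.2]) (pow_nonneg (Real.sqrt_nonneg _) _)
  · rw [intervalIntegral.integral_const_mul, ← hm]
    have : ((i : ℝ) + 3) ≠ 0 := by positivity
    push_cast
    field_simp
    ring

/-- The loss beyond `(log u + 2.19) / u`. -/
theorem integral_far_le (hu : 14247 / 1000 ≤ u) (p : ℕ) :
    ∫ s in (0 : ℝ)..1, arc s ^ (p + 1) * farLoss u s ≤
      231 / 100 * u ^ 2 * (Real.exp (-(((p : ℝ) + 3) * ((Real.log u + 219 / 100) / u) ^ 2 / 2)) /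
        ((p : ℝ) + 3)) := by
  have hu0 : 0 < u := by linarith
  set x₀ := (Real.log u + 219 / 100) / u with hx₀
  have hx0 : 0 ≤ x₀ := div_nonneg (by linarith [log_ge hu]) hu0.le
  set x := min x₀ 1 with hx
  have hxm : x ∈ Icc (0 : ℝ) 1 := ⟨le_min hx0 zero_le_one, min_le_right _ _⟩
  have hc : Continuous fun s => arc s ^ (p + 1) := continuous_arc.pow _
  have hle : arc x ^ (p + 3) ≤ Real.exp (-(((p : ℝ) + 3) * x₀ ^ 2 / 2)) := by
    rcases le_total x₀ 1 with h | h
    · rw [hx, min_eq_left h]
      have h1 : arc x₀ ≤ Real.exp (-(x₀ ^ 2 / 2)) := by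
        refine Real.sqrt_le_iff.2 ⟨(Real.exp_pos _).le, ?_⟩
        rw [← Real.exp_nat_mul]
        refine le_trans (le_of_eq ?_) (Real.add_one_le_exp _)
        push_cast
        ring
      refine (pow_le_pow_left₀ (Real.sqrt_nonneg _) h1 _).trans (le_of_eq ?_)
      rw [← Real.exp_nat_mul]
      push_cast
      ring_nf
    · rw [hx, min_eq_right h]
      simp [arc, (Real.exp_pos _).le]
  refine (integral_le_beyond hxm (hc.mul ((continuous_rampFar u).mul
      (continuous_const.mul continuous_id)))
    (g := fun s => 231 / 100 * u ^ 2 * (s * arc s ^ (p + 1)))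
    (continuous_const.mul (continuous_id.mul hc)) (fun s hs => ?_) fun s hs => ?_).trans ?_
  · have h1 : u * s ≤ Real.log u + 219 / 100 := by
      refine (mul_le_mul_of_nonneg_left (hs.2.trans (min_le_left _ _)) hu0.le).trans (le_of_eq ?_)
      rw [hx₀]
      field_simp
    have : rampFar u s = 0 := max_eq_left ((min_le_right _ _).trans (by linarith))
    simp [this]
  · refine le_trans (mul_le_mul_of_nonneg_left (mul_le_of_le_one_left
      (mul_nonneg (by positivity) (hxm.1.trans hs.1)) (rampFar_le_one u s))
      (pow_nonneg (Real.sqrt_nonneg _) _)) (le_of_eq ?_)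
    simp only [Pi.mul_apply, id]
    ring
  · rw [intervalIntegral.integral_const_mul]
    refine mul_le_mul_of_nonneg_left ?_ (by positivity)
    rw [le_div_iff₀ (by positivity), mul_comm, integral_high_moment hxm]
    exact hle

end Vale.Agent.P237.Petty.Cor.Huge
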