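import Vale.Agent.P237.Petty.Cor.Potential
import Vale.Agent.P237.Petty.Cor.Mills

/-!
# P237: the parameters of the slope-free field in the orders from two hundred on

All of them are closed functions of `u = √(p + 3)`: the weight of the shadow `cB`, the potential
`-(1 - s ^ 2) (cK d + cb d ^ 2)`, and the constants of the lower bound that depends on `s` only.
Here `d = t - s` and `core` is the part of the integrand that is not the common one.
-/

namespace Vale.Agent.P237.Petty.Cor.Huge

/-- The linear coefficient of the potential; it makes the terms linear in `d` cancel. -/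
noncomputable def cK (u : ℝ) : ℝ := 1 + (1 + 2 * u) / u ^ 2

/-- The quadratic coefficient of the potential. -/
noncomputable def cb (u : ℝ) : ℝ := 3 / u

/-- The weight of the shadow. -/
noncomputable def cB (u : ℝ) : ℝ := 2 * u + cK u - 2 / u

/-- The least coefficient of the gauge of the speed, at the centre. -/
noncomputable def rho (u : ℝ) : ℝ := 2 * u - 2 * cK u - 6 * cb u - 2 / u

/-- The slope of the reciprocal of the coefficient of the gauge. -/
noncomputable def kappa (u : ℝ) : ℝ := 2 * cK u / (rho u - 2 * cK u)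

/-- The quadratic coefficient in `s` of the first order residue. -/
noncomputable def cG (u : ℝ) : ℝ := 2 * u + cK u + cB u / 2

/-- The constant term of the bound of `(1 + s) (1 + kappa s)`. -/
noncomputable def wA (u : ℝ) : ℝ := 1 + (1 + kappa u) / (2 * u)

/-- The quadratic term of the bound of `(1 + s) (1 + kappa s)`. -/
noncomputable def wC (u : ℝ) : ℝ := kappa u + (1 + kappa u) * u / 2

/-- The loss in the square of `d` at the centre. -/
noncomputable def alpha (u : ℝ) : ℝ :=
  13 / 3 * (4 * cb u ^ 2) * (32 / 27) * (1 + kappa u) / (2 * rho u)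

/-- The part of the integrand that is not the common one. -/
noncomputable def core (u c s t r : ℝ) : ℝ :=
  2 * u * (1 - s * t) * (r - 1) + cB u / c * -Real.log r -
    (cK u + 2 * cb u * (t - s)) * c ^ 2 * (1 / r - 1) + 3 * u * s * (t - s) ^ 2

/-- The loss of the linear terms. -/
noncomputable def mainLoss (u c s : ℝ) : ℝ :=
  13 / 10 / (2 * rho u) * (wA u + wC u * s ^ 2) *
    (21 / 20 * (2 / u - cG u * s ^ 2) ^ 2 / c ^ 2 + 21 * (cB u / 2) ^ 2 * s ^ 8 / c ^ 6)

/-- The loss in the square of `d` near the centre. -/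
noncomputable def centreLoss (u s : ℝ) : ℝ := max 0 (alpha u - u / 2 * s)

/-- A continuous cut at `8 / 25`. -/
noncomputable def rampMid (s : ℝ) : ℝ := max 0 (min 1 ((s - 8 / 25) * 200))

/-- A continuous cut at `(log u + 2.19) / u`. -/
noncomputable def rampFar (u s : ℝ) : ℝ :=
  max 0 (min 1 ((u * s - (Real.log u + 219 / 100)) * 100))

/-- The loss in the square of `d` away from the centre. -/
noncomputable def midLoss (u c s : ℝ) : ℝ := rampMid s * (111 / 10 * u * s ^ 2 / c ^ 2)

/-- The loss at speeds below one half, away from the centre. -/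
noncomputable def farLoss (u s : ℝ) : ℝ := rampFar u s * (231 / 100 * u ^ 2 * s)

variable {u : ℝ}

theorem cK_bounds (hu : 14247 / 1000 ≤ u) : 1 ≤ cK u ∧ cK u ≤ 11454 / 10000 := by
  have h : (1 + 2 * u) / u ^ 2 ≤ 1454 / 10000 := by
    rw [div_le_iff₀ (by positivity)]
    nlinarith
  have h0 : 0 ≤ (1 + 2 * u) / u ^ 2 := by positivity
  rw [cK]
  exact ⟨by linarith, by linarith⟩

theorem cb_bounds (hu : 14247 / 1000 ≤ u) : 0 ≤ cb u ∧ cb u ≤ 2106 / 10000 := by
  have h : 0 < u := by linarith
  refine ⟨by rw [cb]; positivity, ?_⟩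
  rw [cb, div_le_iff₀ h]
  linarith

theorem two_div_bounds (hu : 14247 / 1000 ≤ u) : 0 ≤ 2 / u ∧ 2 / u ≤ 1404 / 10000 := by
  have h : 0 < u := by linarith
  refine ⟨by positivity, ?_⟩
  rw [div_le_iff₀ h]
  linarith

theorem cB_bounds (hu : 14247 / 1000 ≤ u) : 2 * u ≤ cB u ∧ cB u ≤ 2 * (10403 / 10000 * u) := by
  have hK := cK_bounds hu
  have he := two_div_bounds hu
  rw [cB]
  exact ⟨by linarith, by linarith⟩

theorem rho_ge (hu : 14247 / 1000 ≤ u) : 17406 / 10000 * u ≤ rho u := by
  have hK := cK_bounds hu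
  have hb := cb_bounds hu
  have he := two_div_bounds hu
  rw [rho]
  linarith

theorem rho_pos (hu : 14247 / 1000 ≤ u) : 0 < rho u ∧ 0 < rho u - 2 * cK u := by
  have := rho_ge hu
  have := cK_bounds hu
  exact ⟨by linarith, by linarith⟩

theorem kappa_bounds (hu : 14247 / 1000 ≤ u) : 0 ≤ kappa u ∧ kappa u ≤ 102 / 1000 := by
  have hK := cK_bounds hu
  have hp := (rho_pos hu).2
  have hb := cb_bounds hu
  have he := two_div_bounds hu
  refine ⟨div_nonneg (by linarith) hp.le, ?_⟩
  rw [kappa, div_le_iff₀ hp, rho]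
  linarith

theorem cG_bounds (hu : 14247 / 1000 ≤ u) : 3 * u ≤ cG u ∧ cG u ≤ 31206 / 10000 * u := by
  have hK := cK_bounds hu
  have he := two_div_bounds hu
  rw [cG, cB]
  exact ⟨by linarith, by linarith⟩

theorem wA_bounds (hu : 14247 / 1000 ≤ u) : 1 ≤ wA u ∧ wA u ≤ 10388 / 10000 := by
  have hk := kappa_bounds hu
  have h : (1 + kappa u) / (2 * u) ≤ 388 / 10000 := by
    rw [div_le_iff₀ (by linarith)]
    linarith
  have h0 : 0 ≤ (1 + kappa u) / (2 * u) := div_nonneg (by linarith) (by linarith)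
  rw [wA]
  exact ⟨by linarith, by linarith⟩

theorem wC_bounds (hu : 14247 / 1000 ≤ u) : u / 2 ≤ wC u ∧ wC u ≤ 5582 / 10000 * u := by
  obtain ⟨h0, h1⟩ := kappa_bounds hu
  have h2 := mul_le_mul_of_nonneg_right h1 (show (0 : ℝ) ≤ u by linarith)
  have h3 := mul_nonneg h0 (show (0 : ℝ) ≤ u by linarith)
  rw [wC]
  exact ⟨by linarith, by linarith⟩

theorem alpha_bounds (hu : 14247 / 1000 ≤ u) : 0 ≤ alpha u ∧ alpha u ≤ 586 / 10 / u ^ 3 := by
  have h : 0 < u := by linarith
  have hk := kappa_bounds hu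
  have hr := rho_ge hu
  have hp := (rho_pos hu).1
  have hn : 0 ≤ 1 + kappa u := by linarith
  refine ⟨by rw [alpha]; positivity, ?_⟩
  rw [alpha, cb, div_le_div_iff₀ (by linarith) (by positivity)]
  have e : 13 / 3 * (4 * (3 / u) ^ 2) * (32 / 27) * (1 + kappa u) * u ^ 3 =
      1664 / 9 * ((1 + kappa u) * u) := by
    field_simp
    ring
  rw [e]
  have := mul_le_mul_of_nonneg_right (show 1 + kappa u ≤ 1102 / 1000 by linarith) h.le
  linarith

theorem log_ge (hu : 14247 / 1000 ≤ u) : 2645 / 1000 ≤ Real.log u := by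
  have h2 := Real.log_two_gt_d9
  have h16 : Real.log 16 = 4 * Real.log 2 := by
    rw [show (16 : ℝ) = 2 ^ 4 by norm_num, Real.log_pow]
    norm_num
  have h := Real.one_sub_inv_le_log_of_pos (show (0 : ℝ) < 14247 / 1000 / 16 by norm_num)
  rw [Real.log_div (by norm_num) (by norm_num), h16] at h
  have h' := Real.log_le_log (by norm_num) hu
  norm_num at h h' ⊢
  linarith

end Vale.Agent.P237.Petty.Cor.Huge
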